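import Mathlib

/-!
Ordered roots of a monic cubic `T³ + c₂ T² + c₁ T + c₀` with an orientation, and the dual
coordinates `n_i` of a vector `(S₀, S₁, S₂)` given by `∑ n_i = S₀`, `∑ v_i n_i = S₁`,
`∑ v_i² n_i = S₂`.
-/

namespace Vale.Agent.P297.H80

/-- The discriminant of the monic cubic `T³ + c₂ T² + c₁ T + c₀`. -/
def disc3 {R : Type} [CommRing R] (c : Fin 3 → R) : R :=
  c 2 ^ 2 * c 1 ^ 2 - 4 * c 1 ^ 3 - 4 * c 2 ^ 3 * c 0 + 18 * c 2 * c 1 * c 0 - 27 * c 0 ^ 2

/-- The norm `∏ (A + B v_i + C v_i²)` over the roots `v_i` of `T³ + c₂ T² + c₁ T + c₀`. -/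
def nrm {R : Type} [CommRing R] (c : Fin 3 → R) (A B C : R) : R :=
  A ^ 3 - A ^ 2 * B * c 2 + A ^ 2 * C * (c 2 ^ 2 - 2 * c 1) + A * B ^ 2 * c 1
    - A * B * C * (c 2 * c 1 - 3 * c 0) + A * C ^ 2 * (c 1 ^ 2 - 2 * c 2 * c 0)
    - B ^ 3 * c 0 + B ^ 2 * C * (c 2 * c 0) - B * C ^ 2 * (c 1 * c 0) + C ^ 3 * c 0 ^ 2

/-- The cubic form in `S` with `nrm3 c S = - disc3 c * n₀ n₁ n₂`. -/
def nrm3 {R : Type} [CommRing R] (c : Fin 3 → R) (S : Fin 3 → R) : R :=
  nrm c (S 2 + c 2 * S 1 + c 1 * S 0) (S 1 + c 2 * S 0) (S 0)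

/-- `v` is the list of the roots of the cubic with orientation `e`. -/
structure Rts {R : Type} [CommRing R] (c : Fin 3 → R) (e : R) (v : Fin 3 → R) : Prop where
  s0 : v 0 * v 1 * v 2 = -c 0
  s1 : v 0 * v 1 + v 1 * v 2 + v 2 * v 0 = c 1
  s2 : v 0 + v 1 + v 2 = -c 2
  ori : (v 0 - v 1) * (v 1 - v 2) * (v 2 - v 0) = e

/-- Rotation of the indices. -/
def rot {R : Type} (v : Fin 3 → R) : Fin 3 → R := ![v 1, v 2, v 0]

/-- The exchange of the last two indices. -/
def swp {R : Type} (v : Fin 3 → R) : Fin 3 → R := ![v 0, v 2, v 1]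

@[simp] theorem rot_zero {R : Type} (v : Fin 3 → R) : rot v 0 = v 1 := rfl
@[simp] theorem rot_one {R : Type} (v : Fin 3 → R) : rot v 1 = v 2 := rfl
@[simp] theorem rot_two {R : Type} (v : Fin 3 → R) : rot v 2 = v 0 := rfl
@[simp] theorem swp_zero {R : Type} (v : Fin 3 → R) : swp v 0 = v 0 := rfl
@[simp] theorem swp_one {R : Type} (v : Fin 3 → R) : swp v 1 = v 2 := rfl
@[simp] theorem swp_two {R : Type} (v : Fin 3 → R) : swp v 2 = v 1 := rfl

theorem rot_rot_rot {R : Type} (v : Fin 3 → R) : rot (rot (rot v)) = v := by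
  funext i
  fin_cases i <;> rfl

theorem swp_swp {R : Type} (v : Fin 3 → R) : swp (swp v) = v := by
  funext i
  fin_cases i <;> rfl

theorem swp_rot {R : Type} (v : Fin 3 → R) : swp (rot v) = rot (rot (swp v)) := by
  funext i
  fin_cases i <;> rfl

theorem rot_comp {R S : Type} (f : R → S) (v : Fin 3 → R) : rot (f ∘ v) = f ∘ rot v := by
  funext i
  fin_cases i <;> rfl

theorem swp_comp {R S : Type} (f : R → S) (v : Fin 3 → R) : swp (f ∘ v) = f ∘ swp v := by
  funext i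
  fin_cases i <;> rfl

namespace Rts

variable {R : Type} [CommRing R] {c : Fin 3 → R} {e : R} {v : Fin 3 → R}

theorem rot (h : Rts c e v) : Rts c e (rot v) where
  s0 := by simp only [rot_zero, rot_one, rot_two]; linear_combination h.s0
  s1 := by simp only [rot_zero, rot_one, rot_two]; linear_combination h.s1
  s2 := by simp only [rot_zero, rot_one, rot_two]; linear_combination h.s2
  ori := by simp only [rot_zero, rot_one, rot_two]; linear_combination h.ori

theorem swp (h : Rts c e v) : Rts c (-e) (swp v) where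
  s0 := by simp only [swp_zero, swp_one, swp_two]; linear_combination h.s0
  s1 := by simp only [swp_zero, swp_one, swp_two]; linear_combination h.s1
  s2 := by simp only [swp_zero, swp_one, swp_two]; linear_combination h.s2
  ori := by simp only [swp_zero, swp_one, swp_two]; linear_combination -h.ori

theorem map {S : Type} [CommRing S] (f : R →+* S) (h : Rts c e v) :
    Rts (f ∘ c) (f e) (f ∘ v) where
  s0 := by
    have := congrArg f h.s0
    simpa using this
  s1 := by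
    have := congrArg f h.s1
    simpa using this
  s2 := by
    have := congrArg f h.s2
    simpa using this
  ori := by
    have := congrArg f h.ori
    simpa using this

theorem root (h : Rts c e v) (i : Fin 3) : v i ^ 3 + c 2 * v i ^ 2 + c 1 * v i + c 0 = 0 := by
  have h2 : c 2 = -(v 0 + v 1 + v 2) := by linear_combination h.s2
  have h1 := h.s1.symm
  have h0 : c 0 = -(v 0 * v 1 * v 2) := by linear_combination h.s0
  rw [h2, h1, h0]
  fin_cases i <;> simp <;> ring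

theorem eval_eq (h : Rts c e v) (t : R) :
    t ^ 3 + c 2 * t ^ 2 + c 1 * t + c 0 = (t - v 0) * (t - v 1) * (t - v 2) := by
  have h2 : c 2 = -(v 0 + v 1 + v 2) := by linear_combination h.s2
  have h1 := h.s1.symm
  have h0 : c 0 = -(v 0 * v 1 * v 2) := by linear_combination h.s0
  rw [h2, h1, h0]
  ring

theorem disc (h : Rts c e v) : disc3 c = e ^ 2 := by
  have h2 : c 2 = -(v 0 + v 1 + v 2) := by linear_combination h.s2
  have h1 := h.s1.symm
  have h0 : c 0 = -(v 0 * v 1 * v 2) := by linear_combination h.s0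
  rw [disc3, h2, h1, h0, ← h.ori]
  ring

end Rts

section Field

variable {N : Type} [Field N] {c : Fin 3 → N} {e : N} {v w : Fin 3 → N}

theorem Rts.ne (h : Rts c e v) (he : e ≠ 0) : v 0 ≠ v 1 ∧ v 1 ≠ v 2 ∧ v 2 ≠ v 0 := by
  rw [← h.ori] at he
  refine ⟨fun h' ↦ he ?_, fun h' ↦ he ?_, fun h' ↦ he ?_⟩ <;> rw [h'] <;> ring

theorem Rts.injective (h : Rts c e v) (he : e ≠ 0) : Function.Injective v := by
  obtain ⟨h1, h2, h3⟩ := h.ne he
  intro i j hij
  fin_cases i <;> fin_cases j <;> simp_all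

/-- Roots with a given orientation exist. -/
theorem exists_rts [IsAlgClosed N] [CharZero N] (c : Fin 3 → N) {e : N} (he : e ^ 2 = disc3 c) :
    ∃ v, Rts c e v := by
  classical
  let P : Polynomial N := Polynomial.X ^ 3 + Polynomial.C (c 2) * Polynomial.X ^ 2 +
    Polynomial.C (c 1) * Polynomial.X + Polynomial.C (c 0)
  have hP : P.natDegree = 3 := by
    simp only [P]
    compute_degree!
  have hm : P.Monic := by
    simp only [P]
    monicity!
  have hs : P.Splits := IsAlgClosed.splits P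
  have hc : P.roots.card = 3 := by
    rw [← hP]
    exact (Polynomial.splits_iff_card_roots.1 hs)
  obtain ⟨a, b, d, hr⟩ := Multiset.card_eq_three.1 hc
  have hPe : P = (Polynomial.X - Polynomial.C a) * (Polynomial.X - Polynomial.C b) *
      (Polynomial.X - Polynomial.C d) := by
    have h1 := Polynomial.Splits.eq_prod_roots_of_monic hs hm
    rw [h1, hr]
    simp [mul_assoc]
  have hev : ∀ t : N, t ^ 3 + c 2 * t ^ 2 + c 1 * t + c 0 = (t - a) * (t - b) * (t - d) := by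
    intro t
    have := congrArg (Polynomial.eval t) hPe
    simpa [P] using this
  have e0 := hev 0
  have e1 := hev 1
  have e2 := hev (-1)
  have h0 : a * b * d = -c 0 := by linear_combination e0
  have h2 : a + b + d = -c 2 := by
    have h2 : (2 : N) ≠ 0 := two_ne_zero
    exact mul_left_cancel₀ h2 (by linear_combination e1 + e2 - 2 * e0)
  have h1 : a * b + b * d + d * a = c 1 := by
    have h2 : (2 : N) ≠ 0 := two_ne_zero
    exact mul_left_cancel₀ h2 (by linear_combination e2 - e1)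
  have hv : Rts c ((a - b) * (b - d) * (d - a)) ![a, b, d] :=
    ⟨by simpa using h0, by simpa using h1, by simpa using h2, by simp⟩
  have hd := hv.disc
  rw [← he] at hd
  rcases sq_eq_sq_iff_eq_or_eq_neg.1 hd with h | h
  · exact ⟨_, h ▸ hv⟩
  · refine ⟨swp ![a, b, d], ?_⟩
    have h3 := hv.swp
    rwa [← h] at h3

theorem Rts.eq_of_zero [CharZero N] (h : Rts c e v) (h' : Rts c e w) (he : e ≠ 0)
    (h0 : w 0 = v 0) : w = v := by
  have key : ∀ t, (t - w 0) * (t - w 1) * (t - w 2) = (t - v 0) * (t - v 1) * (t - v 2) :=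
    fun t ↦ (h'.eval_eq t).symm.trans (h.eval_eq t)
  have hn := h'.ne he
  have k1 : (w 1 - v 0) * (w 1 - v 1) * (w 1 - v 2) = 0 := by
    rw [← key]; ring
  have s2 : w 0 + w 1 + w 2 = v 0 + v 1 + v 2 := h'.s2.trans h.s2.symm
  have o := h'.ori.trans h.ori.symm
  have e1 : w 1 - v 0 ≠ 0 := by
    rw [← h0]
    exact sub_ne_zero.2 hn.1.symm
  rcases mul_eq_zero.1 k1 with k | k
  · have k' := sub_eq_zero.1 ((mul_eq_zero.1 k).resolve_left e1)
    have k2 : w 2 = v 2 := by linear_combination s2 - h0 - k'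
    funext i
    fin_cases i
    exacts [h0, k', k2]
  · have k' := sub_eq_zero.1 k
    have k2 : w 2 = v 1 := by linear_combination s2 - h0 - k'
    rw [h0, k', k2] at o
    refine absurd ?_ he
    have h2 : (2 : N) ≠ 0 := two_ne_zero
    refine mul_left_cancel₀ h2 ?_
    rw [← h.ori]
    linear_combination -o

/-- The roots with a given orientation are unique up to rotation. -/
theorem Rts.unique [CharZero N] (h : Rts c e v) (h' : Rts c e w) (he : e ≠ 0) :
    w = v ∨ w = H80.rot v ∨ w = H80.rot (H80.rot v) := by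
  have k0 : (w 0 - v 0) * (w 0 - v 1) * (w 0 - v 2) = 0 := by
    rw [← h.eval_eq, h'.eval_eq]; ring
  rcases mul_eq_zero.1 k0 with k | k
  · rcases mul_eq_zero.1 k with k | k
    · exact Or.inl (h.eq_of_zero h' he (sub_eq_zero.1 k))
    · exact Or.inr (Or.inl (h.rot.eq_of_zero h' he (sub_eq_zero.1 k)))
  · exact Or.inr (Or.inr (h.rot.rot.eq_of_zero h' he (sub_eq_zero.1 k)))

/-- The coordinates `n_i` with `∑ n_i = S 0`, `∑ v_i n_i = S 1`, `∑ v_i² n_i = S 2`. -/
def nn (v S : Fin 3 → N) : Fin 3 → N :=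
  ![(S 2 - (v 1 + v 2) * S 1 + v 1 * v 2 * S 0) / ((v 0 - v 1) * (v 0 - v 2)),
    (S 2 - (v 2 + v 0) * S 1 + v 2 * v 0 * S 0) / ((v 1 - v 2) * (v 1 - v 0)),
    (S 2 - (v 0 + v 1) * S 1 + v 0 * v 1 * S 0) / ((v 2 - v 0) * (v 2 - v 1))]

theorem nn_zero (v S : Fin 3 → N) : nn v S 0 =
    (S 2 - (v 1 + v 2) * S 1 + v 1 * v 2 * S 0) / ((v 0 - v 1) * (v 0 - v 2)) := rfl

theorem nn_one (v S : Fin 3 → N) : nn v S 1 =
    (S 2 - (v 2 + v 0) * S 1 + v 2 * v 0 * S 0) / ((v 1 - v 2) * (v 1 - v 0)) := rfl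

theorem nn_two (v S : Fin 3 → N) : nn v S 2 =
    (S 2 - (v 0 + v 1) * S 1 + v 0 * v 1 * S 0) / ((v 2 - v 0) * (v 2 - v 1)) := rfl

theorem nn_rot (v S : Fin 3 → N) : nn (rot v) S = rot (nn v S) := by
  funext i
  fin_cases i <;> rfl

theorem nn_swp (v S : Fin 3 → N) : nn (swp v) S = swp (nn v S) := by
  funext i
  fin_cases i <;> simp [nn, add_comm, mul_comm]

theorem nn_map {N' : Type} [Field N'] (f : N →+* N') (v S : Fin 3 → N) :
    nn (f ∘ v) (f ∘ S) = f ∘ nn v S := by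
  funext i
  fin_cases i <;> simp [nn]

theorem sum_nn (h : Rts c e v) (he : e ≠ 0) (S : Fin 3 → N) :
    nn v S 0 + nn v S 1 + nn v S 2 = S 0 := by
  obtain ⟨h1, h2, h3⟩ := h.ne he
  have h1' := sub_ne_zero.2 h1
  have h2' := sub_ne_zero.2 h2
  have h3' := sub_ne_zero.2 h3
  have h4' := sub_ne_zero.2 h1.symm
  have h5' := sub_ne_zero.2 h2.symm
  have h6' := sub_ne_zero.2 h3.symm
  rw [nn_zero, nn_one, nn_two]
  field_simp
  ring

theorem sum_nn1 (h : Rts c e v) (he : e ≠ 0) (S : Fin 3 → N) :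
    v 0 * nn v S 0 + v 1 * nn v S 1 + v 2 * nn v S 2 = S 1 := by
  obtain ⟨h1, h2, h3⟩ := h.ne he
  have h1' := sub_ne_zero.2 h1
  have h2' := sub_ne_zero.2 h2
  have h3' := sub_ne_zero.2 h3
  have h4' := sub_ne_zero.2 h1.symm
  have h5' := sub_ne_zero.2 h2.symm
  have h6' := sub_ne_zero.2 h3.symm
  rw [nn_zero, nn_one, nn_two]
  field_simp
  ring

theorem sum_nn2 (h : Rts c e v) (he : e ≠ 0) (S : Fin 3 → N) :
    v 0 ^ 2 * nn v S 0 + v 1 ^ 2 * nn v S 1 + v 2 ^ 2 * nn v S 2 = S 2 := by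
  obtain ⟨h1, h2, h3⟩ := h.ne he
  have h1' := sub_ne_zero.2 h1
  have h2' := sub_ne_zero.2 h2
  have h3' := sub_ne_zero.2 h3
  have h4' := sub_ne_zero.2 h1.symm
  have h5' := sub_ne_zero.2 h2.symm
  have h6' := sub_ne_zero.2 h3.symm
  rw [nn_zero, nn_one, nn_two]
  field_simp
  ring

theorem nn_unique (h : Rts c e v) (he : e ≠ 0) {S n : Fin 3 → N}
    (h0 : n 0 + n 1 + n 2 = S 0) (h1 : v 0 * n 0 + v 1 * n 1 + v 2 * n 2 = S 1)
    (h2 : v 0 ^ 2 * n 0 + v 1 ^ 2 * n 1 + v 2 ^ 2 * n 2 = S 2) : n = nn v S := by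
  obtain ⟨g1, g2, g3⟩ := h.ne he
  have h1' := sub_ne_zero.2 g1
  have h2' := sub_ne_zero.2 g2
  have h3' := sub_ne_zero.2 g3
  have h4' := sub_ne_zero.2 g1.symm
  have h5' := sub_ne_zero.2 g2.symm
  have h6' := sub_ne_zero.2 g3.symm
  funext i
  fin_cases i
  · change n 0 = nn v S 0
    rw [nn_zero, eq_div_iff (mul_ne_zero h1' h6')]
    linear_combination h2 - (v 1 + v 2) * h1 + v 1 * v 2 * h0
  · change n 1 = nn v S 1
    rw [nn_one, eq_div_iff (mul_ne_zero h2' h4')]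
    linear_combination h2 - (v 2 + v 0) * h1 + v 2 * v 0 * h0
  · change n 2 = nn v S 2
    rw [nn_two, eq_div_iff (mul_ne_zero h3' h5')]
    linear_combination h2 - (v 0 + v 1) * h1 + v 0 * v 1 * h0

theorem prod_nn (h : Rts c e v) (he : e ≠ 0) (S : Fin 3 → N) :
    e ^ 2 * (nn v S 0 * nn v S 1 * nn v S 2) = -nrm3 c S := by
  obtain ⟨g1, g2, g3⟩ := h.ne he
  have h1' := sub_ne_zero.2 g1
  have h2' := sub_ne_zero.2 g2
  have h3' := sub_ne_zero.2 g3
  have h4' := sub_ne_zero.2 g1.symm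
  have h5' := sub_ne_zero.2 g2.symm
  have h6' := sub_ne_zero.2 g3.symm
  have d2 : c 2 = -(v 0 + v 1 + v 2) := by linear_combination h.s2
  have d1 := h.s1.symm
  have d0 : c 0 = -(v 0 * v 1 * v 2) := by linear_combination h.s0
  rw [← h.ori, nrm3, nrm, d2, d1, d0]
  rw [nn_zero, nn_one, nn_two]
  field_simp
  ring

end Field

section Can

variable {N : Type} [Field N] {A : Type} [AddCommGroup A]

open Classical in
/-- The sum of `Bs v (nn v S) X` over the three lists `v` of the roots with orientation `e`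
(zero if there is no such list). -/
noncomputable def can (Bs : (Fin 3 → N) → (Fin 3 → N) → A) (c : Fin 3 → N) (e : N)
    (S : Fin 3 → N) : A :=
  if h : ∃ v, Rts c e v then
    Bs h.choose (nn h.choose S) + Bs (rot h.choose) (rot (nn h.choose S)) +
      Bs (rot (rot h.choose)) (rot (rot (nn h.choose S)))
  else 0

theorem can_eq [CharZero N] (Bs : (Fin 3 → N) → (Fin 3 → N) → A) {c : Fin 3 → N} {e : N}
    (S : Fin 3 → N) {v : Fin 3 → N} (h : Rts c e v) (he : e ≠ 0) :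
    can Bs c e S = Bs v (nn v S) + Bs (rot v) (rot (nn v S)) +
      Bs (rot (rot v)) (rot (rot (nn v S))) := by
  have hex : ∃ v, Rts c e v := ⟨v, h⟩
  rw [can, dif_pos hex]
  generalize hw : hex.choose = w
  have h' : Rts c e w := hw ▸ hex.choose_spec
  rcases h.unique h' he with rfl | rfl | rfl
  · rfl
  · rw [nn_rot, rot_rot_rot, rot_rot_rot]
    abel
  · rw [nn_rot, nn_rot, rot_rot_rot, rot_rot_rot]
    abel

theorem can_map [CharZero N] {N' : Type} [Field N'] [CharZero N'] {A' : Type} [AddCommGroup A']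
    (Bs : (Fin 3 → N) → (Fin 3 → N) → A) (Bs' : (Fin 3 → N') → (Fin 3 → N') → A')
    (g : N →+* N') (G : A →+ A') {c : Fin 3 → N} {e : N} (S : Fin 3 → N) {v : Fin 3 → N}
    (h : Rts c e v) (he : e ≠ 0)
    (hG : ∀ v n : Fin 3 → N, Rts c e v → n 0 + n 1 + n 2 = S 0 →
      v 0 * n 0 + v 1 * n 1 + v 2 * n 2 = S 1 →
      v 0 ^ 2 * n 0 + v 1 ^ 2 * n 1 + v 2 ^ 2 * n 2 = S 2 → G (Bs v n) = Bs' (g ∘ v) (g ∘ n)) :
    G (can Bs c e S) = can Bs' (g ∘ c) (g e) (g ∘ S) := by
  have he' : g e ≠ 0 := (map_ne_zero g).2 he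
  have k : ∀ w, Rts c e w → G (Bs w (nn w S)) = Bs' (g ∘ w) (g ∘ nn w S) := fun w hw ↦
    hG w (nn w S) hw (sum_nn hw he S) (sum_nn1 hw he S) (sum_nn2 hw he S)
  rw [can_eq Bs S h he, can_eq Bs' (g ∘ S) (h.map g) he', map_add, map_add, k v h,
    ← nn_rot, ← nn_rot, k _ h.rot, k _ h.rot.rot, nn_rot, nn_rot, nn_map, rot_comp, rot_comp,
    rot_comp, rot_comp, nn_rot]

/-- The exchange of two roots. -/
theorem can_neg [CharZero N] (Bs : (Fin 3 → N) → (Fin 3 → N) → A) {c : Fin 3 → N} {e : N}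
    (S : Fin 3 → N) {v : Fin 3 → N} (h : Rts c e v) (he : e ≠ 0) :
    can Bs c (-e) S = Bs (swp v) (swp (nn v S)) + Bs (rot (swp v)) (rot (swp (nn v S))) +
      Bs (rot (rot (swp v))) (rot (rot (swp (nn v S)))) := by
  rw [can_eq Bs S h.swp (neg_ne_zero.2 he), nn_swp]

end Can

end Vale.Agent.P297.H80
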