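import Vale.Agent.P297.H721.Six
import Vale.Agent.P297.H777.Z3Smooth

/-!
The two lines of the degenerate conic meet in one point: the node determinant is not zero.
-/

set_option linter.unusedSectionVars false
set_option linter.style.longLine false
set_option linter.style.haveILetI false

open Polynomial

namespace Vale.Agent.P297.H80

open Vale.Agent.P297 Vale.Agent.P297.Gen

/-- The determinant of the node. -/
def thet {R : Type} [CommRing R] (w n : Fin 3 → R) : R :=
  (w 1 - w 2) * (n 1 * n 2) + (w 2 - w 0) * (n 0 * n 2) + (w 0 - w 1) * (n 0 * n 1)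

section aux

variable {k N : Type} [Field k] [Field N] [CharZero k] [Algebra k N]

/-- Three linear combinations with double root everywhere: the product has double roots. -/
theorem node_aux {B : N} (hB : Transcendental k B) {w : Fin 3 → k}
    (he : (w 1 - w 2) * (w 2 - w 0) * (w 0 - w 1) ≠ 0) {S0 S1 E2 : k[X]} {n : Fin 3 → N}
    (h0 : n 0 + n 1 + n 2 = aeval B S0)
    (h1 : algebraMap k N (w 0) * n 0 + algebraMap k N (w 1) * n 1 + algebraMap k N (w 2) * n 2 =
      aeval B S1) (h2 : n 0 * n 1 * n 2 = aeval B E2)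
    (hT : thet (fun i => algebraMap k N (w i)) n = 0) {b : N} (hb : aeval b E2 = 0) :
    aeval b (derivative E2) = 0 := by
  haveI : CharZero N := charZero_of_injective_algebraMap (algebraMap k N).injective
  have hinj : Function.Injective (aeval B : k[X] →ₐ[k] N) := transcendental_iff_injective.1 hB
  set W : Fin 3 → N := fun i => algebraMap k N (w i) with hW
  set q0 : k := w 1 - w 2 with hq0
  set q1 : k := w 2 - w 0 with hq1
  set q2 : k := w 0 - w 1 with hq2
  set e : k := q0 * q1 * q2 with he'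
  have hq00 : q0 ≠ 0 := left_ne_zero_of_mul (left_ne_zero_of_mul he)
  have hq10 : q1 ≠ 0 := right_ne_zero_of_mul (left_ne_zero_of_mul he)
  have hq20 : q2 ≠ 0 := right_ne_zero_of_mul he
  set E1 : k := w 0 + w 1 + w 2
  set E3 : k := w 0 * w 1 + w 1 * w 2 + w 2 * w 0
  set M0 : k[X] := C (3 * (w 1 + w 2) - 2 * E1) * S1 - C (3 * (w 1 * w 2) - E3) * S0 with hM0
  set M1 : k[X] := C (3 * (w 2 + w 0) - 2 * E1) * S1 - C (3 * (w 2 * w 0) - E3) * S0 with hM1
  set M2 : k[X] := C (3 * (w 0 + w 1) - 2 * E1) * S1 - C (3 * (w 0 * w 1) - E3) * S0 with hM2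
  set Q0 : N := algebraMap k N q0
  set Q1 : N := algebraMap k N q1
  set Q2 : N := algebraMap k N q2
  set y : N := Q1 * Q2 * n 0 + Q0 * Q2 * n 1 + Q0 * Q1 * n 2 with hy
  have e0 : 3 * (Q1 * Q2) * n 0 = y + aeval B M0 := by
    simp only [hM0, map_sub, map_mul, map_add, map_ofNat, aeval_C, ← h0, ← h1, hy, Q0, Q1, Q2, q0,
      q1, q2, E1, E3]
    ring
  have e1 : 3 * (Q2 * Q0) * n 1 = y + aeval B M1 := by
    simp only [hM1, map_sub, map_mul, map_add, map_ofNat, aeval_C, ← h0, ← h1, hy, Q0, Q1, Q2, q0,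
      q1, q2, E1, E3]
    ring
  have e2 : 3 * (Q0 * Q1) * n 2 = y + aeval B M2 := by
    simp only [hM2, map_sub, map_mul, map_add, map_ofNat, aeval_C, ← h0, ← h1, hy, Q0, Q1, Q2, q0,
      q1, q2, E1, E3]
    ring
  have hsum : M0 + M1 + M2 = 0 := by
    simp only [hM0, hM1, hM2, E1, E3, C_sub, C_mul, C_add, C_ofNat]
    ring
  have hsum' : aeval B M0 + aeval B M1 + aeval B M2 = 0 := by
    rw [← map_add, ← map_add, hsum, map_zero]
  set P2 : k[X] := M1 * M2 + M2 * M0 + M0 * M1 with hP2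
  set R : k[X] := C (27 * e ^ 2) * E2 - M0 * M1 * M2 with hR
  -- `3 y² = - P2`
  have f1 : 3 * y ^ 2 + aeval B P2 = 0 := by
    have h3 : 9 * (Q0 * Q1 * Q2) * thet W n = 0 := by rw [hT, mul_zero]
    have h4 : 9 * (Q0 * Q1 * Q2) * thet W n =
        (3 * (Q2 * Q0) * n 1) * (3 * (Q0 * Q1) * n 2) + (3 * (Q0 * Q1) * n 2) * (3 * (Q1 * Q2) * n 0)
        + (3 * (Q1 * Q2) * n 0) * (3 * (Q2 * Q0) * n 1) := by
      have t0 : W 1 - W 2 = Q0 := (map_sub _ _ _).symm
      have t1 : W 2 - W 0 = Q1 := (map_sub _ _ _).symm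
      have t2 : W 0 - W 1 = Q2 := (map_sub _ _ _).symm
      rw [thet, t0, t1, t2]
      ring
    rw [h4, e0, e1, e2] at h3
    rw [hP2]
    simp only [map_add, map_mul]
    linear_combination h3 - 2 * y * hsum'
  -- `y³ + P2 y = R`
  have f2 : y ^ 3 + aeval B P2 * y = aeval B R := by
    have h3 : (3 * (Q1 * Q2) * n 0) * (3 * (Q2 * Q0) * n 1) * (3 * (Q0 * Q1) * n 2) =
        27 * (Q0 * Q1 * Q2) ^ 2 * aeval B E2 := by
      rw [← h2]
      ring
    rw [e0, e1, e2] at h3
    have h4 : (Q0 * Q1 * Q2) = algebraMap k N e := by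
      rw [he', map_mul, map_mul]
    rw [h4] at h3
    rw [hR, hP2]
    simp only [map_sub, map_mul, map_add, map_ofNat, aeval_C, map_pow]
    linear_combination h3 - y ^ 2 * hsum'
  have f3 : 3 * aeval B R = 2 * aeval B P2 * y := by
    linear_combination y * f1 - 3 * f2
  -- `y` is a polynomial
  obtain ⟨Z, hZ⟩ : ∃ Z : k[X], y = aeval B Z := by
    by_cases hP0 : P2 = 0
    · refine ⟨0, ?_⟩
      rw [hP0, map_zero, add_zero] at f1
      rw [map_zero]
      exact pow_eq_zero_iff (two_ne_zero) |>.1 ((mul_eq_zero.1 f1).resolve_left three_ne_zero)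
    · have h3 : C 27 * R ^ 2 = -C 4 * P2 ^ 3 := by
        apply hinj
        simp only [map_mul, map_neg, map_pow, aeval_C, map_ofNat]
        linear_combination 3 * (3 * aeval B R + 2 * aeval B P2 * y) * f3 +
          4 * aeval B P2 ^ 2 * f1
      have h4 : P2 ^ 2 ∣ R ^ 2 := by
        have h5 : R ^ 2 = P2 ^ 2 * (C (27⁻¹) * (-C 4 * P2)) := by
          have h6 : (C (27⁻¹ : k) * C 27 : k[X]) = 1 := by
            rw [← C_mul, inv_mul_cancel₀ (by norm_num), C_1]
          calc R ^ 2 = (C (27⁻¹ : k) * C 27) * R ^ 2 := by rw [h6, one_mul]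
            _ = C (27⁻¹ : k) * (C 27 * R ^ 2) := by ring
            _ = _ := by rw [h3]; ring
        exact ⟨_, h5⟩
      have h7 : P2 ∣ R := (IsIntegrallyClosed.pow_dvd_pow_iff two_ne_zero).1 h4
      obtain ⟨Q, hQ⟩ := h7
      refine ⟨C (3 / 2) * Q, ?_⟩
      have h8 : aeval B P2 ≠ 0 := by
        intro h9
        exact hP0 (hinj (by rw [h9, map_zero]))
      rw [hQ, map_mul] at f3
      have h9 : 3 * aeval B Q = 2 * y := mul_left_cancel₀ h8 (by linear_combination f3)
      rw [map_mul, aeval_C, map_div₀, map_ofNat, map_ofNat]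
      linear_combination (-1 / 2 : N) * h9
  rw [hZ] at e0 e1 e2 f1 f2
  -- identities between polynomials
  have g1 : (Z + M0) * (Z + M1) * (Z + M2) = C (27 * e ^ 2) * E2 := by
    apply hinj
    have h3 : (3 * (Q1 * Q2) * n 0) * (3 * (Q2 * Q0) * n 1) * (3 * (Q0 * Q1) * n 2) =
        27 * (Q0 * Q1 * Q2) ^ 2 * aeval B E2 := by
      rw [← h2]
      ring
    rw [e0, e1, e2] at h3
    have h4 : (Q0 * Q1 * Q2) = algebraMap k N e := by
      rw [he', map_mul, map_mul]
    rw [h4] at h3
    simp only [map_mul, map_add, aeval_C, map_ofNat, map_pow]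
    exact h3
  have g2 : (Z + M1) * (Z + M2) + (Z + M2) * (Z + M0) + (Z + M0) * (Z + M1) = 0 := by
    apply hinj
    simp only [map_mul, map_add, map_zero]
    rw [hP2] at f1
    simp only [map_mul, map_add] at f1
    linear_combination f1 + 2 * aeval B Z * hsum'
  -- at `b`
  have k1 := congrArg (aeval b : k[X] →ₐ[k] N) g1
  have k2 := congrArg (aeval b : k[X] →ₐ[k] N) g2
  have k3 := congrArg (fun q => aeval b (derivative q)) g1
  simp only [derivative_mul, derivative_C, map_mul, map_add, aeval_C, hb, mul_zero, map_zero,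
    zero_mul, zero_add] at k1 k2 k3
  have hne : algebraMap k N (27 * e ^ 2) ≠ 0 := by
    rw [_root_.map_ne_zero]
    exact mul_ne_zero (by norm_num) (pow_ne_zero 2 he)
  set x0 := aeval b Z + aeval b M0
  set x1 := aeval b Z + aeval b M1
  set x2 := aeval b Z + aeval b M2
  have key : x1 * x2 = 0 ∧ x2 * x0 = 0 ∧ x0 * x1 = 0 := by
    rcases mul_eq_zero.1 k1 with h | h
    · rcases mul_eq_zero.1 h with h | h
      · rw [h] at k2 ⊢
        refine ⟨?_, mul_zero _, zero_mul _⟩
        linear_combination k2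
      · rw [h] at k2 ⊢
        refine ⟨zero_mul _, ?_, mul_zero _⟩
        linear_combination k2
    · rw [h] at k2 ⊢
      refine ⟨mul_zero _, zero_mul _, ?_⟩
      linear_combination k2
  have k4 : algebraMap k N (27 * e ^ 2) * aeval b (derivative E2) = 0 := by
    rw [map_mul, ← k3]
    linear_combination (aeval b (derivative Z) + aeval b (derivative M0)) * key.1 +
      (aeval b (derivative Z) + aeval b (derivative M1)) * key.2.1 +
      (aeval b (derivative Z) + aeval b (derivative M2)) * key.2.2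
  exact (mul_eq_zero.1 k4).resolve_left hne

end aux

section lab

open Vale.Agent.P297.H288

variable {N : Type} [Field N] [Algebra ℂ N] [IsAlgClosed N] {P : Par}
  {F : IntermediateField ℂ N} {δ B : N} {w n : Fin 3 → N}

/-- **The node determinant is not zero.** -/
theorem thet_ne (h : Lab P δ B w n) (hF : ∀ u : N, IsAlgebraic F u → u ∈ F) (hδ : δ ∈ F)
    (hB : B ∉ F) (he : (w 0 - w 1) * (w 1 - w 2) * (w 2 - w 0) ≠ 0)
    (hd : disc3 (cf2 P δ) ≠ 0) : thet w n ≠ 0 := by
  haveI := charZeroC N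
  haveI := charZeroC F
  intro hT
  have hBt : Transcendental F B := fun h1 => hB (hF B h1)
  let w' : Fin 3 → F := fun i => ⟨w i, h.w_mem hF hδ i⟩
  let δ' : F := ⟨δ, hδ⟩
  let r3 : F := algebraMap ℂ F (P.t 2) + algebraMap ℂ F (P.z 2) * δ'
  let r4 : F := algebraMap ℂ F (P.t 3) + algebraMap ℂ F (P.z 3) * δ'
  let r1 : F := algebraMap ℂ F (P.t 0) + algebraMap ℂ F (P.z 0) * δ'
  have c3 : algebraMap F N r3 = algebraMap ℂ N (P.t 2) + algebraMap ℂ N (P.z 2) * δ := rfl
  have c4 : algebraMap F N r4 = algebraMap ℂ N (P.t 3) + algebraMap ℂ N (P.z 3) * δ := rfl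
  have c1 : algebraMap F N r1 = algebraMap ℂ N (P.t 0) + algebraMap ℂ N (P.z 0) * δ := rfl
  have cd : algebraMap F N δ' = δ := rfl
  have cw : ∀ i, algebraMap F N (w' i) = w i := fun _ => rfl
  let S0 : F[X] := C 3 * (X + C (δ' + 1))
  let S1 : F[X] := -(C (3 * (δ' + 1)) * X + C (9 * δ' ^ 2 + 9 * δ' + r3 + r4))
  let E2 : F[X] := X ^ 3 + C (3 * δ') * X ^ 2 - C r3 * X - C r1
  have hE2 : ∀ b : N, aeval b E2 = b ^ 3 + 3 * δ * b ^ 2 -
      (algebraMap ℂ N (P.t 2) + algebraMap ℂ N (P.z 2) * δ) * b -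
      (algebraMap ℂ N (P.t 0) + algebraMap ℂ N (P.z 0) * δ) := by
    intro b
    simp only [E2, map_sub, map_add, map_mul, map_pow, aeval_X, aeval_C, map_ofNat, c1, c3, cd]
  obtain ⟨ε, hε⟩ := IsAlgClosed.exists_pow_nat_eq (disc3 (cf2 P δ)) (n := 2) (by norm_num)
  obtain ⟨v, hv⟩ := exists_rts (cf2 P δ) hε
  have hε0 : ε ≠ 0 := by
    rintro rfl
    exact hd (by rw [← hε]; ring)
  have hb : aeval (v 0) E2 = 0 := by
    rw [hE2]
    have h1 := hv.root 0
    change v 0 ^ 3 + 3 * δ * v 0 ^ 2 + -(algebraMap ℂ N (P.t 2) + algebraMap ℂ N (P.z 2) * δ) *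
      v 0 + -(algebraMap ℂ N (P.t 0) + algebraMap ℂ N (P.z 0) * δ) = 0 at h1
    linear_combination h1
  have key := node_aux (k := F) (N := N) hBt (w := w') (S0 := S0) (S1 := S1) (E2 := E2) (n := n)
    (b := v 0) ?_ ?_ ?_ ?_ hT hb
  · -- the derivative at a simple root
    have h1 : aeval (v 0) (derivative E2) = 3 * v 0 ^ 2 + 2 * (3 * δ) * v 0 -
        (algebraMap ℂ N (P.t 2) + algebraMap ℂ N (P.z 2) * δ) := by
      have h2 : derivative E2 = C 3 * X ^ 2 + C (3 * δ') * (C 2 * X) - C r3 := by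
        simp only [E2, derivative_sub, derivative_add, derivative_C_mul, derivative_C,
          derivative_X, derivative_X_pow, mul_one, sub_zero, Nat.cast_ofNat]
        norm_num
      rw [h2]
      simp only [map_sub, map_add, map_mul, map_pow, aeval_X, aeval_C, map_ofNat, c3, cd]
      ring
    rw [h1] at key
    have g1 : v 0 * v 1 + v 1 * v 2 + v 2 * v 0 =
        -(algebraMap ℂ N (P.t 2) + algebraMap ℂ N (P.z 2) * δ) := hv.s1
    have g2 : v 0 + v 1 + v 2 = -(3 * δ) := hv.s2
    have g3 : (v 0 - v 1) * (v 0 - v 2) = 0 := by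
      linear_combination key + g1 - 2 * v 0 * g2
    apply hε0
    rw [← hv.ori]
    linear_combination -(v 1 - v 2) * g3
  · intro h1
    apply he
    have h2 := congrArg (algebraMap F N) h1
    simp only [map_mul, map_sub, map_zero, cw] at h2
    linear_combination h2
  · simp only [S0, map_mul, map_add, aeval_X, aeval_C, map_ofNat, map_one, cd]
    linear_combination h.n1
  · simp only [S1, map_neg, map_mul, map_add, map_pow, aeval_X, aeval_C, map_ofNat, map_one, cd, cw,
      c3, c4]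
    rw [h.n2]
    rfl
  · rw [h.n3, hE2]
    unfold ff2 B2 A2
    ring

end lab

end Vale.Agent.P297.H80
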