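import Vale.Agent.P297.H80.Z3.Pencil

/-!
The pencil of conics that degenerates to two lines: the points of a form of degree six on the
generic member specialise to its points on the two lines.
-/

set_option linter.unusedSectionVars false
set_option linter.style.longLine false
set_option linter.style.haveILetI false

open Polynomial

namespace Vale.Agent.P297.H80

open Vale.Agent.P297 Vale.Agent.P297.H72 Vale.Agent.P297.H637

section special

variable {N : Type} [Field N] {ni nj nm wi wj wm : N}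

theorem Qx_coeff (e : ℕ → ℕ → N) (n w : N) : (Qx e n w).coeff 6 = Ef e 1 n⁻¹ 0 := by
  have h1 : (C n⁻¹ * (X - C w) : N[X]).natDegree ≤ 1 :=
    (natDegree_C_mul_le _ _).trans (natDegree_X_sub_C_le _)
  have h := Ef_coeff (e := e) (d := 1) (natDegree_X_le (R := N)) h1
    ((natDegree_one (R := N)).le.trans (by norm_num))
  rw [coeff_X_one, coeff_C_mul, coeff_sub, coeff_X_one, coeff_C, coeff_one] at h
  simpa [Qx] using h

theorem conic_of {R : Type} [Field R] {f2 ν H1 H0 wi wj wm r : R}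
    (hM : (Mx f2 ν H1).eval r ≠ 0) :
    f2 * (ν * (Kx ν wi wj wm H1 H0).eval r / (Mx f2 ν H1).eval r) ^ 2 -
      ν * (H1 * ((Nx f2 ν wi wj wm H1 H0).eval r / (Mx f2 ν H1).eval r) + H0 -
        ν * ((Nx f2 ν wi wj wm H1 H0).eval r / (Mx f2 ν H1).eval r - wm)) *
          (ν * (Kx ν wi wj wm H1 H0).eval r / (Mx f2 ν H1).eval r) +
      ν * (((Nx f2 ν wi wj wm H1 H0).eval r / (Mx f2 ν H1).eval r - wi) *
        ((Nx f2 ν wi wj wm H1 H0).eval r / (Mx f2 ν H1).eval r - wj)) = 0 := by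
  have h1 : (Nx f2 ν wi wj wm H1 H0).eval r / (Mx f2 ν H1).eval r =
      wi + r * (ν * (Kx ν wi wj wm H1 H0).eval r / (Mx f2 ν H1).eval r) := by
    rw [Nx_eval]
    field_simp
  have h2 : (ν * r ^ 2 - ν * (H1 - ν) * r + f2) *
      (ν * (Kx ν wi wj wm H1 H0).eval r / (Mx f2 ν H1).eval r) =
      ν * ((wj - wi) * r + (H0 + wi * H1 + ν * (wm - wi))) := by
    rw [← Mx_eval, ← Kx_eval]
    field_simp
  rw [h1]
  set α := ν * (Kx ν wi wj wm H1 H0).eval r / (Mx f2 ν H1).eval r with hα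
  linear_combination α * h2

theorem form_of {R : Type} [Field R] {e : ℕ → ℕ → R} {f2 ν H1 H0 wi wj wm r : R}
    (hM : (Mx f2 ν H1).eval r ≠ 0) (hr : (Fx e f2 ν wi wj wm H1 H0).eval r = 0) :
    Ef e ((Nx f2 ν wi wj wm H1 H0).eval r / (Mx f2 ν H1).eval r)
      (ν * (Kx ν wi wj wm H1 H0).eval r / (Mx f2 ν H1).eval r) 1 = 0 := by
  rw [Fx_eval, Ef_div _ hM] at hr
  exact (mul_eq_zero.1 hr).resolve_left (pow_ne_zero _ hM)

/-- the coordinate `D` on the first line -/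
def d1 (ni wi wj a : N) : N := (wj * a + -(wi * ni)) / (1 * a + -ni)

/-- the coordinate `D` on the second line -/
def d2 (ni nj nm wi wj wm w : N) : N :=
  (nm * (wj * nj - wi * ni) * w + nj * (nm * wm - wi * ni)) /
    (nm * (nj - ni) * w + nj * (nm - ni))

/-- the scaled polynomial of the special member -/
noncomputable def Fc0 (e : ℕ → ℕ → N) (ni nj nm wi wj wm : N) : N[X] :=
  Ef (fun a b => C (e a b)) (Nt 0 nm ni nj wi wj wm (ni + nj + nm) 1 0 0 0)
    (C nm * Kt wi wj wm 0 0 1) (Mt 0 nm ni nj (ni + nj + nm) 1 0 0)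

theorem mt0 (w : N) : (Mt 0 nm ni nj (ni + nj + nm) 1 0 0).eval w =
    nm * (nj - ni) * w + nj * (nm - ni) := by
  rw [Mt_eval]
  ring

theorem nt0 (w : N) : (Nt 0 nm ni nj wi wj wm (ni + nj + nm) 1 0 0 0).eval w =
    nm * (wj * nj - wi * ni) * w + nj * (nm * wm - wi * ni) := by
  rw [Nt_eval, mt0, Kt_eval]
  ring

theorem kt0 (w : N) : (Kt wi wj wm 0 0 1).eval w = (wj - wi) * w + (wm - wi) := by
  rw [Kt_eval]
  ring

theorem ln2 (hnj : nj ≠ 0) {w : N} (hw' : nm * (nj - ni) * w + nj * (nm - ni) ≠ 0) :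
    (nm * ((wj - wi) * w + (wm - wi))) / (nm * (nj - ni) * w + nj * (nm - ni)) =
      (d2 ni nj nm wi wj wm w - wi) / nj := by
  unfold d2
  rw [eq_div_iff hnj, eq_sub_iff_add_eq, div_mul_eq_mul_div, div_add' _ _ _ hw']
  congr 1
  ring

theorem Fc0_eval (e : ℕ → ℕ → N) (hnj : nj ≠ 0) {w : N}
    (hw' : nm * (nj - ni) * w + nj * (nm - ni) ≠ 0) :
    (Fc0 e ni nj nm wi wj wm).eval w = (nm * (nj - ni) * w + nj * (nm - ni)) ^ 6 *
      (Qx e nj wi).eval ((nm * (wj * nj - wi * ni) * w + nj * (nm * wm - wi * ni)) /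
    (nm * (nj - ni) * w + nj * (nm - ni))) := by
  rw [Fc0, Ef_eval, eval_mul, eval_C, mt0, nt0, kt0, Ef_div _ hw', ln2 hnj hw', Qx_eval]
  rfl

theorem det2 (hnj : nj ≠ 0) (hnm : nm ≠ 0)
    (hΘ : ni * nm * (wi - wm) + nj * nm * (wm - wj) + ni * nj * (wj - wi) ≠ 0) :
    nm * (wj * nj - wi * ni) * (nj * (nm - ni)) -
      nj * (nm * wm - wi * ni) * (nm * (nj - ni)) ≠ 0 := by
  have h : nm * (wj * nj - wi * ni) * (nj * (nm - ni)) -
    nj * (nm * wm - wi * ni) * (nm * (nj - ni)) =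
    -(nm * nj * (ni * nm * (wi - wm) + nj * nm * (wm - wj) + ni * nj * (wj - wi))) := by ring
  rw [h]
  exact neg_ne_zero.2 (mul_ne_zero (mul_ne_zero hnm hnj) hΘ)

theorem Fc0_natDegree [Infinite N] {e : ℕ → ℕ → N} (hij : ni = nj) (hnj : nj ≠ 0) (hnm : nm ≠ 0)
    (hw : wi ≠ wj) (hQ2 : (Qx e nj wi).natDegree = 6)
    (hd : (Fc0 e ni nj nm wi wj wm).natDegree ≤ 6) :
    (Fc0 e ni nj nm wi wj wm).natDegree = 6 := by
  refine natDegree_eq_of_le_of_coeff_ne_zero hd ?_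
  have eM : Mt 0 nm ni nj (ni + nj + nm) 1 0 0 =
      C (nm * (nj - ni)) * X + C (nj * (nm - ni)) := by
    refine Polynomial.funext fun w => ?_
    rw [mt0, eval_add, eval_mul, eval_C, eval_X, eval_C]
  have eN : Nt 0 nm ni nj wi wj wm (ni + nj + nm) 1 0 0 0 =
      C (nm * (wj * nj - wi * ni)) * X + C (nj * (nm * wm - wi * ni)) := by
    refine Polynomial.funext fun w => ?_
    rw [nt0, eval_add, eval_mul, eval_C, eval_X, eval_C]
  have eK : C nm * Kt wi wj wm 0 0 1 = C (nm * (wj - wi)) * X + C (nm * (wm - wi)) := by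
    refine Polynomial.funext fun w => ?_
    rw [eval_mul, kt0, eval_C, eval_add, eval_mul, eval_C, eval_X, eval_C]
    ring
  have h1 := Ef_coeff (e := e) (d := 1) (natDegree_linear_le (a := nm * (wj * nj - wi * ni))
    (b := nj * (nm * wm - wi * ni))) (natDegree_linear_le (a := nm * (wj - wi))
    (b := nm * (wm - wi))) (natDegree_linear_le (a := nm * (nj - ni)) (b := nj * (nm - ni)))
  have hcf : ∀ a b : N, (C a * X + C b).coeff 1 = a := by
    intro a b
    simp [coeff_C]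
  rw [hcf, hcf, hcf, mul_one] at h1
  rw [Fc0, eM, eN, eK, h1, hij]
  have h2 : Ef e (nm * (wj * nj - wi * nj)) (nm * (wj - wi)) (nm * (nj - nj)) =
      (nm * (wj - wi) * nj) ^ 6 * Ef e 1 nj⁻¹ 0 := by
    rw [← Ef_smul]
    congr 1
    · ring
    · field_simp
    · ring
  rw [h2, ← Qx_coeff e nj wi]
  refine mul_ne_zero (pow_ne_zero _ (mul_ne_zero (mul_ne_zero hnm
    (sub_ne_zero.2 hw.symm)) hnj)) ?_
  rw [← hQ2]
  refine leadingCoeff_ne_zero.2 ?_
  intro h
  rw [h, natDegree_zero] at hQ2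
  exact absurd hQ2 (by norm_num)

/-- The points of the form on the second line. -/
theorem sum_line2 {A : Type} [AddCommGroup A] {e : ℕ → ℕ → N} (hnj : nj ≠ 0)
    (hni : ni ≠ 0) (hnm : nm ≠ 0) (g : N → N → A)
    (hn6 : ni = nj → (Fc0 e ni nj nm wi wj wm).natDegree = 6)
    (hr2 : (Qx e nj wi).roots = (Fc0 e ni nj nm wi wj wm).roots.map (fun w =>
      (nm * (wj * nj - wi * ni) * w + nj * (nm * wm - wi * ni)) /
        (nm * (nj - ni) * w + nj * (nm - ni))) +
      Multiset.replicate (6 - (Fc0 e ni nj nm wi wj wm).natDegree)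
        (nm * (wj * nj - wi * ni) / (nm * (nj - ni)))) :
    ((Qx e nj wi).roots.map fun D => g D ((D - wi) / nj)).sum =
      ((Fc0 e ni nj nm wi wj wm).roots.map fun w => g (d2 ni nj nm wi wj wm w)
      ((d2 ni nj nm wi wj wm w - wi) / nj)).sum + (6 - (Fc0 e ni nj nm wi wj wm).natDegree) •
        g (d1 ni wi wj nj) ((d1 ni wi wj nj - wj) / ni) := by
  rw [hr2, Multiset.map_add, Multiset.sum_add, Multiset.map_map, Multiset.map_replicate,
    Multiset.sum_replicate]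
  congr 1
  by_cases hij : ni = nj
  · rw [hn6 hij, Nat.sub_self, zero_smul, zero_smul]
  · have h1 : nj - ni ≠ 0 := sub_ne_zero.2 (Ne.symm hij)
    have h2 : nm * (wj * nj - wi * ni) / (nm * (nj - ni)) = d1 ni wi wj nj := by
      rw [mul_div_mul_left _ _ hnm, d1, one_mul, ← sub_eq_add_neg, ← sub_eq_add_neg]
    have h3 : (d1 ni wi wj nj - wi) / nj = (d1 ni wi wj nj - wj) / ni := by
      rw [d1, one_mul, ← sub_eq_add_neg, ← sub_eq_add_neg, div_eq_div_iff hnj hni,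
        div_sub' h1, div_sub' h1, div_mul_eq_mul_div, div_mul_eq_mul_div]
      congr 1
      ring
    rw [h2, h3]

end special

/-- The moving data of the generic member infinitely near to the special member. -/
structure Mv {N N₁ : Type} [Field N] [Field N₁] [Algebra N N₁] (P : Plc N N₁)
    (ni nj nm wi wj wm : N) (l y z0 z1 z2 ν H1 H0 f2 : N₁) : Prop where
  hl0 : l ≠ 0
  hl : P.Val l 0
  hy : P.Val y 1
  hz0 : P.Val z0 0
  hz1 : P.Val z1 0
  hz2 : P.Val z2 0
  hν : ν = algebraMap N N₁ nm + l * y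
  hH1 : H1 = algebraMap N N₁ (ni + nj + nm) + l * z1
  hH0 : H0 = algebraMap N N₁ (-(wi * ni + wj * nj + wm * nm)) + l * z0
  hf2 : f2 = algebraMap N N₁ (ni * nj * nm) + l * z2

namespace Mv

variable {N N₁ : Type} [Field N] [Field N₁] [Algebra N N₁] {P : Plc N N₁}
  {ni nj nm wi wj wm : N} {l y z0 z1 z2 ν H1 H0 f2 : N₁}
  (H : Mv P ni nj nm wi wj wm l y z0 z1 z2 ν H1 H0 f2)

include H

theorem vν : P.Val ν nm := by
  have h := (P.val_const nm).add (H.hl.mul H.hy)
  rwa [zero_mul, add_zero, ← H.hν] at h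

theorem vH1 : P.Val H1 (ni + nj + nm) := by
  have h := (P.val_const (ni + nj + nm)).add (H.hl.mul H.hz1)
  rwa [zero_mul, add_zero, ← H.hH1] at h

theorem vH0 : P.Val H0 (-(wi * ni + wj * nj + wm * nm)) := by
  have h := (P.val_const (-(wi * ni + wj * nj + wm * nm))).add (H.hl.mul H.hz0)
  rwa [zero_mul, add_zero, ← H.hH0] at h

theorem vf2 : P.Val f2 (ni * nj * nm) := by
  have h := (P.val_const (ni * nj * nm)).add (H.hl.mul H.hz2)
  rwa [zero_mul, add_zero, ← H.hf2] at h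

theorem e1 : H1 = algebraMap N N₁ ni + algebraMap N N₁ nj + algebraMap N N₁ nm + l * z1 := by
  rw [H.hH1, map_add, map_add]

theorem e0 : H0 = -(algebraMap N N₁ wi * algebraMap N N₁ ni + algebraMap N N₁ wj *
      algebraMap N N₁ nj + algebraMap N N₁ wm * algebraMap N N₁ nm) + l * z0 := by
  rw [H.hH0]
  simp only [map_neg, map_add, map_mul]

theorem e2 : f2 = algebraMap N N₁ ni * algebraMap N N₁ nj * algebraMap N N₁ nm + l * z2 := by
  rw [H.hf2, map_mul, map_mul]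

theorem pM : PVal P (Mx f2 ν H1) (Mx (ni * nj * nm) nm (ni + nj + nm)) :=
  (((PVal.C H.vν).mul (PVal.X.pow 2)).sub ((PVal.C (H.vν.mul (H.vH1.sub H.vν))).mul PVal.X)).add
    (PVal.C H.vf2)

theorem pK : PVal P (Kx ν (algebraMap N N₁ wi) (algebraMap N N₁ wj) (algebraMap N N₁ wm) H1 H0)
      (Kx nm wi wj wm (ni + nj + nm) (-(wi * ni + wj * nj + wm * nm))) :=
  ((PVal.C ((P.val_const wj).sub (P.val_const wi))).mul PVal.X).add
    (PVal.C ((H.vH0.add ((P.val_const wi).mul H.vH1)).add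
      (H.vν.mul ((P.val_const wm).sub (P.val_const wi)))))

theorem pN : PVal P (Nx f2 ν (algebraMap N N₁ wi) (algebraMap N N₁ wj) (algebraMap N N₁ wm) H1 H0)
    (Nx (ni * nj * nm) nm wi wj wm (ni + nj + nm) (-(wi * ni + wj * nj + wm * nm))) :=
  ((PVal.C (P.val_const wi)).mul H.pM).add ((PVal.C H.vν).mul (PVal.X.mul H.pK))

theorem pKt : PVal P (Kt (algebraMap N N₁ wi) (algebraMap N N₁ wj) (algebraMap N N₁ wm) z0 z1 y)
    (Kt wi wj wm 0 0 1) :=
  ((PVal.C ((P.val_const wj).sub (P.val_const wi))).mul PVal.X).add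
    (PVal.C ((H.hz0.add ((P.val_const wi).mul H.hz1)).add
      (H.hy.mul ((P.val_const wm).sub (P.val_const wi)))))

theorem pMt : PVal P (Mt l ν (algebraMap N N₁ ni) (algebraMap N N₁ nj) H1 y z1 z2)
    (Mt 0 nm ni nj (ni + nj + nm) 1 0 0) := by
  have v2 : P.Val (2 : N₁) (2 : N) := by
    have h := P.val_one.add P.val_one
    rwa [one_add_one_eq_two, one_add_one_eq_two] at h
  exact (((PVal.C (H.vν.mul H.hl)).mul (PVal.X.pow 2)).add
    ((PVal.C (((v2.mul H.vν).mul (P.val_const nj)).sub (H.vν.mul (H.vH1.sub H.vν)))).mul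
      PVal.X)).add
    (PVal.C ((H.hz2.sub ((H.hy.mul (P.val_const ni)).mul (P.val_const nj))).sub
      ((H.vν.mul (H.hz1.sub H.hy)).mul (P.val_const nj))))

theorem pNt : PVal P (Nt l ν (algebraMap N N₁ ni) (algebraMap N N₁ nj)
      (algebraMap N N₁ wi) (algebraMap N N₁ wj) (algebraMap N N₁ wm) H1 y z0 z1 z2)
      (Nt 0 nm ni nj wi wj wm (ni + nj + nm) 1 0 0 0) :=
  ((PVal.C (P.val_const wi)).mul H.pMt).add ((PVal.C H.vν).mul
    (((PVal.C (P.val_const nj)).add ((PVal.C H.hl).mul PVal.X)).mul H.pKt))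

theorem Mr (X : N₁) : (Mx f2 ν H1).eval (algebraMap N N₁ nj + l * X) =
    l * (Mt l ν (algebraMap N N₁ ni) (algebraMap N N₁ nj) H1 y z1 z2).eval X := by
  have h := congrArg (Polynomial.eval X) (Mx_comp H.hν H.e1 H.e2)
  simpa only [eval_comp, eval_add, eval_mul, eval_C, eval_X] using h

theorem Kr (X : N₁) : (Kx ν (algebraMap N N₁ wi) (algebraMap N N₁ wj) (algebraMap N N₁ wm)
    H1 H0).eval (algebraMap N N₁ nj + l * X) =
    l * (Kt (algebraMap N N₁ wi) (algebraMap N N₁ wj) (algebraMap N N₁ wm) z0 z1 y).eval X := by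
  have h := congrArg (Polynomial.eval X) (Kx_comp H.hν H.e1 H.e0)
  simpa only [eval_comp, eval_add, eval_mul, eval_C, eval_X] using h

theorem Nr (X : N₁) : (Nx f2 ν (algebraMap N N₁ wi) (algebraMap N N₁ wj) (algebraMap N N₁ wm)
    H1 H0).eval (algebraMap N N₁ nj + l * X) =
    l * (Nt l ν (algebraMap N N₁ ni) (algebraMap N N₁ nj)
      (algebraMap N N₁ wi) (algebraMap N N₁ wj) (algebraMap N N₁ wm) H1 y z0 z1 z2).eval X := by
  have h := congrArg (Polynomial.eval X) (Nx_comp H.hν H.e1 H.e0 H.e2)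
  simpa only [eval_comp, eval_add, eval_mul, eval_C, eval_X] using h

/-- the coordinates of the moving point -/
theorem val_off (hni : ni ≠ 0) (hnm : nm ≠ 0) {r : N₁} {a : N} (hra : P.Val r a)
    (hai : 1 * a + -ni ≠ 0) (haj : a ≠ nj) :
    (Mx f2 ν H1).eval r ≠ 0 ∧
    P.Val ((Nx f2 ν (algebraMap N N₁ wi) (algebraMap N N₁ wj) (algebraMap N N₁ wm) H1 H0).eval r /
            (Mx f2 ν H1).eval r) (d1 ni wi wj a) ∧
    P.Val (ν * (Kx ν (algebraMap N N₁ wi) (algebraMap N N₁ wj) (algebraMap N N₁ wm) H1 H0).eval r /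
            (Mx f2 ν H1).eval r) ((d1 ni wi wj a - wj) / ni) := by
  have hai' : a - ni ≠ 0 := by rwa [one_mul, ← sub_eq_add_neg] at hai
  have hMa : (Mx (ni * nj * nm) nm (ni + nj + nm)).eval a = nm * (a - ni) * (a - nj) := by
    rw [Mx_eval]
    ring
  have hMa0 : (Mx (ni * nj * nm) nm (ni + nj + nm)).eval a ≠ 0 := by
    rw [hMa]
    exact mul_ne_zero (mul_ne_zero hnm hai') (sub_ne_zero.2 haj)
  have vM := H.pM.eval hra
  have vD := (H.pN.eval hra).div vM hMa0
  have vα := (H.vν.mul (H.pK.eval hra)).div vM hMa0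
  have eD : (Nx (ni * nj * nm) nm wi wj wm (ni + nj + nm)
      (-(wi * ni + wj * nj + wm * nm))).eval a / (Mx (ni * nj * nm) nm (ni + nj + nm)).eval a =
      d1 ni wi wj a := by
    rw [d1, div_eq_div_iff hMa0 hai, Nx_eval, Kx_eval, Mx_eval]
    ring
  have eα : nm * (Kx nm wi wj wm (ni + nj + nm)
      (-(wi * ni + wj * nj + wm * nm))).eval a / (Mx (ni * nj * nm) nm (ni + nj + nm)).eval a =
      (d1 ni wi wj a - wj) / ni := by
    have h1 : (d1 ni wi wj a - wj) / ni = (wj - wi) / (a - ni) := by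
      rw [d1, one_mul, ← sub_eq_add_neg, ← sub_eq_add_neg, div_eq_div_iff hni hai',
        sub_mul, div_mul_cancel₀ _ hai']
      ring
    rw [h1, div_eq_div_iff hMa0 hai', Kx_eval, Mx_eval]
    ring
  rw [eD] at vD
  rw [eα] at vα
  exact ⟨vM.ne_zero hMa0, vD, vα⟩

theorem val_cl (hnj : nj ≠ 0) {r : N₁} {w : N} (hrw : P.Val (scl (algebraMap N N₁ nj) l r) w)
    (hden : nm * (nj - ni) * w + nj * (nm - ni) ≠ 0) :
    (Mx f2 ν H1).eval r ≠ 0 ∧
    P.Val ((Nx f2 ν (algebraMap N N₁ wi) (algebraMap N N₁ wj) (algebraMap N N₁ wm) H1 H0).eval r /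
            (Mx f2 ν H1).eval r) (d2 ni nj nm wi wj wm w) ∧
    P.Val (ν * (Kx ν (algebraMap N N₁ wi) (algebraMap N N₁ wj) (algebraMap N N₁ wm) H1 H0).eval r /
            (Mx f2 ν H1).eval r) ((d2 ni nj nm wi wj wm w - wi) / nj) := by
  have vM := H.pMt.eval hrw
  rw [mt0] at vM
  have vN := H.pNt.eval hrw
  rw [nt0] at vN
  have vK := H.pKt.eval hrw
  rw [kt0] at vK
  have hM0 := vM.ne_zero hden
  have h1 := H.Mr (scl (algebraMap N N₁ nj) l r)
  have h2 := H.Nr (scl (algebraMap N N₁ nj) l r)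
  have h3 := H.Kr (scl (algebraMap N N₁ nj) l r)
  rw [scl_eq H.hl0 r] at h1 h2 h3
  have vD := vN.div vM hden
  have vα := (H.vν.mul vK).div vM hden
  rw [← mul_div_mul_left _ _ H.hl0, ← h1, ← h2] at vD
  rw [← mul_div_mul_left _ _ H.hl0, ← h1, mul_left_comm l ν, ← h3, ln2 hnj hden] at vα
  exact ⟨by rw [h1]; exact mul_ne_zero H.hl0 hM0, vD, vα⟩

theorem val_node (hni : ni ≠ 0) (hnm : nm ≠ 0) (hij : ni ≠ nj) {r : N₁} (hrc : P.Val r nj)
    (hs0 : scl (algebraMap N N₁ nj) l r ≠ 0) (hs : P.Val (scl (algebraMap N N₁ nj) l r)⁻¹ 0) :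
    (Mx f2 ν H1).eval r ≠ 0 ∧
    P.Val ((Nx f2 ν (algebraMap N N₁ wi) (algebraMap N N₁ wj) (algebraMap N N₁ wm) H1 H0).eval r /
            (Mx f2 ν H1).eval r) (d1 ni wi wj nj) ∧
    P.Val (ν * (Kx ν (algebraMap N N₁ wi) (algebraMap N N₁ wj) (algebraMap N N₁ wm) H1 H0).eval r /
            (Mx f2 ν H1).eval r) ((d1 ni wi wj nj - wj) / ni) := by
  have vwi := P.val_const wi
  have vwj := P.val_const wj
  have vwm := P.val_const wm
  have vni := P.val_const ni
  have vnj := P.val_const nj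
  have v2 : P.Val (2 : N₁) (2 : N) := by
    have h := P.val_one.add P.val_one
    rwa [one_add_one_eq_two, one_add_one_eq_two] at h
  have hij' : nj - ni ≠ 0 := sub_ne_zero.2 (Ne.symm hij)
  set X := scl (algebraMap N N₁ nj) l r with hX
  have hrX : algebraMap N N₁ nj + l * X = r := scl_eq H.hl0 r
  have hlX : P.Val (l * X) 0 := by
    have h1 := hrc.sub (P.val_const nj)
    rw [sub_self] at h1
    have h2 : r - algebraMap N N₁ nj = l * X := by
      rw [← hrX]
      ring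
    rwa [h2] at h1
  set m' := ν * (l * X) + (2 * ν * algebraMap N N₁ nj - ν * (H1 - ν)) +
    (z2 - y * algebraMap N N₁ ni * algebraMap N N₁ nj - ν * (z1 - y) * algebraMap N N₁ nj) *
      X⁻¹ with hm'
  set k' := (algebraMap N N₁ wj - algebraMap N N₁ wi) + (z0 + algebraMap N N₁ wi * z1 +
    y * (algebraMap N N₁ wm - algebraMap N N₁ wi)) * X⁻¹ with hk'
  have hden : nm * (nj - ni) ≠ 0 := mul_ne_zero hnm hij'
  have vm : P.Val m' (nm * (nj - ni)) := by
    have h1 := ((H.vν.mul hlX).add (((v2.mul H.vν).mul vnj).sub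
      (H.vν.mul (H.vH1.sub H.vν)))).add
      (((H.hz2.sub ((H.hy.mul vni).mul vnj)).sub ((H.vν.mul (H.hz1.sub H.hy)).mul vnj)).mul hs)
    have h2 : nm * 0 + (2 * nm * nj - nm * (ni + nj + nm - nm)) +
        (0 - 1 * ni * nj - nm * (0 - 1) * nj) * 0 = nm * (nj - ni) := by ring
    rwa [h2] at h1
  have vk : P.Val k' (wj - wi) := by
    have h1 := (vwj.sub vwi).add (((H.hz0.add (vwi.mul H.hz1)).add
      (H.hy.mul (vwm.sub vwi))).mul hs)
    rwa [mul_zero, add_zero] at h1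
  have e3 : (Mt l ν (algebraMap N N₁ ni) (algebraMap N N₁ nj) H1 y z1 z2).eval X = X * m' := by
    rw [Mt_eval, hm']
    linear_combination (-(z2 - y * algebraMap N N₁ ni * algebraMap N N₁ nj -
      ν * (z1 - y) * algebraMap N N₁ nj)) * mul_inv_cancel₀ hs0
  have e4 : (Kt (algebraMap N N₁ wi) (algebraMap N N₁ wj) (algebraMap N N₁ wm) z0 z1 y).eval X =
      X * k' := by
    rw [Kt_eval, hk']
    linear_combination (-(z0 + algebraMap N N₁ wi * z1 +
      y * (algebraMap N N₁ wm - algebraMap N N₁ wi))) * mul_inv_cancel₀ hs0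
  have e5 : (Nt l ν (algebraMap N N₁ ni) (algebraMap N N₁ nj) (algebraMap N N₁ wi)
      (algebraMap N N₁ wj) (algebraMap N N₁ wm) H1 y z0 z1 z2).eval X =
      X * (algebraMap N N₁ wi * m' + ν * ((algebraMap N N₁ nj + l * X) * k')) := by
    rw [Nt_eval, e3, e4]
    ring
  have h1 := H.Mr X
  have h2 := H.Nr X
  have h3 := H.Kr X
  rw [hrX] at h1 h2 h3
  rw [e3] at h1
  rw [e5, hrX] at h2
  rw [e4] at h3
  have vD := ((vwi.mul vm).add (H.vν.mul (hrc.mul vk))).div vm hden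
  have vα := (H.vν.mul vk).div vm hden
  rw [← mul_div_mul_left _ _ hs0, ← mul_div_mul_left _ _ H.hl0, ← h1, ← h2] at vD
  rw [← mul_div_mul_left _ _ hs0, ← mul_div_mul_left _ _ H.hl0, ← h1, mul_left_comm X ν,
    mul_left_comm l ν, ← h3] at vα
  have eD : (wi * (nm * (nj - ni)) + nm * (nj * (wj - wi))) / (nm * (nj - ni)) =
      d1 ni wi wj nj := by
    rw [d1, one_mul, ← sub_eq_add_neg, ← sub_eq_add_neg, div_eq_div_iff hden hij']
    ring
  have eα : nm * (wj - wi) / (nm * (nj - ni)) = (d1 ni wi wj nj - wj) / ni := by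
    rw [mul_div_mul_left _ _ hnm, d1, one_mul, ← sub_eq_add_neg, ← sub_eq_add_neg,
      div_eq_div_iff hij' hni, sub_mul ((wj * nj - wi * ni) / (nj - ni)), div_mul_cancel₀ _ hij']
    ring
  rw [eD] at vD
  rw [eα] at vα
  refine ⟨?_, vD, vα⟩
  rw [h1]
  exact mul_ne_zero H.hl0 (mul_ne_zero hs0 (vm.ne_zero hden))

end Mv

section spec

variable {K N N₁ : Type} [Field K] [Algebra ℂ K] [Field N] [Algebra ℂ N] [Field N₁] [Algebra ℂ N₁]
  [Algebra N N₁] [IsScalarTower ℂ N N₁] [IsAlgClosed N] [IsAlgClosed N₁] {P : Plc N N₁}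

/-- **The generic member of the pencil specialises to the two lines.** -/
theorem pencil_spec {ni nj nm wi wj wm : N} (hni : ni ≠ 0) (hnj : nj ≠ 0) (hnm : nm ≠ 0)
    (hw : wi ≠ wj)
    (hΘ : ni * nm * (wi - wm) + nj * nm * (wm - wj) + ni * nj * (wj - wi) ≠ 0)
    {l y z0 z1 z2 ν H1 H0 f2 : N₁} (H : Mv P ni nj nm wi wj wm l y z0 z1 z2 ν H1 H0 f2)
    {e₁ : ℕ → ℕ → N₁} {e : ℕ → ℕ → N} (he : ∀ a b, P.Val (e₁ a b) (e a b))
    (hinf : Ef e wj 0 1 ≠ 0)
    (hQ1 : (Qx e ni wj).natDegree = 6) (hQ2 : (Qx e nj wi).natDegree = 6)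
    (f : N₁ → N₁ → ((K →ₐ[ℂ] N₁) →₀ ℤ)) (g : N → N → ((K →ₐ[ℂ] N) →₀ ℤ))
    (hfg : ∀ D₁ α₁ D α, P.Val D₁ D → P.Val α₁ α →
      f2 * α₁ ^ 2 - ν * (H1 * D₁ + H0 - ν * (D₁ - algebraMap N N₁ wm)) * α₁ +
        ν * ((D₁ - algebraMap N N₁ wi) * (D₁ - algebraMap N N₁ wj)) = 0 →
      Ef e₁ D₁ α₁ 1 = 0 →
      ((Qx e ni wj).eval D = 0 ∧ α = (D - wj) / ni ∨ (Qx e nj wi).eval D = 0 ∧
        α = (D - wi) / nj) → (f D₁ α₁, g D α) ∈ SpecC K P) :
    (((Fx e₁ f2 ν (algebraMap N N₁ wi) (algebraMap N N₁ wj) (algebraMap N N₁ wm)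
        H1 H0).roots.map fun r => f
          ((Nx f2 ν (algebraMap N N₁ wi) (algebraMap N N₁ wj) (algebraMap N N₁ wm) H1 H0).eval r /
            (Mx f2 ν H1).eval r)
          (ν * (Kx ν (algebraMap N N₁ wi) (algebraMap N N₁ wj) (algebraMap N N₁ wm) H1 H0).eval r /
            (Mx f2 ν H1).eval r)).sum,
      ((Qx e ni wj).roots.map fun D => g D ((D - wj) / ni)).sum +
        ((Qx e nj wi).roots.map fun D => g D ((D - wi) / nj)).sum) ∈ SpecC K P := by
  classical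
  set F := Fx e₁ f2 ν (algebraMap N N₁ wi) (algebraMap N N₁ wj) (algebraMap N N₁ wm) H1 H0 with hF
  set F₀ := Fx e (ni * nj * nm) nm wi wj wm (ni + nj + nm) (-(wi * ni + wj * nj + wm * nm))
    with hF₀
  have pF : PVal P F F₀ := PVal_Ef he H.pN ((PVal.C H.vν).mul H.pK) H.pM
  have c12 : F₀.coeff 12 ≠ 0 := by
    rw [hF₀, Fx_coeff]
    exact mul_ne_zero (pow_ne_zero _ hnm) hinf
  have h0 : F₀ ≠ 0 := by
    intro h
    rw [h, coeff_zero] at c12
    exact c12 rfl
  have hdF₀ : F₀.natDegree = 12 := natDegree_eq_of_le_of_coeff_ne_zero (Fx_deg _ _ _ _ _ _ _ _) c12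
  have hdF : F.natDegree = 12 :=
    natDegree_eq_of_le_of_coeff_ne_zero (Fx_deg _ _ _ _ _ _ _ _) ((pF 12).ne_zero c12)
  -- the first line
  have hQ10 : Qx e ni wj ≠ 0 := by
    intro h
    rw [h, natDegree_zero] at hQ1
    exact absurd hQ1 (by norm_num)
  have hQ20 : Qx e nj wi ≠ 0 := by
    intro h
    rw [h, natDegree_zero] at hQ2
    exact absurd hQ2 (by norm_num)
  obtain ⟨hG00, hG0d, hr1, hne1⟩ := roots_moebius_full (Q := Qx e ni wj) (R := G0 e ni wi wj)
    (d := 6) hQ10 hQ1 (α := wj) (β := -(wi * ni)) (γ := 1) (δ := -ni)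
    (by
      have h : wj * -ni - -(wi * ni) * 1 = ni * (wi - wj) := by ring
      rw [h]
      exact mul_ne_zero hni (sub_ne_zero.2 hw)) (fun w hw => G0_eval e hni hw)
  have hfac : F₀ = C (nm ^ 6) * G0 e ni wi wj * (X - C nj) ^ 6 := Fx_special e
  have hG06 : (G0 e ni wi wj).natDegree = 6 := by
    refine le_antisymm hG0d ?_
    have h1 : F₀.natDegree ≤ (G0 e ni wi wj).natDegree + 6 := by
      rw [hfac]
      refine natDegree_mul_le.trans (add_le_add (natDegree_C_mul_le _ _) ?_)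
      refine natDegree_pow_le.trans ?_
      rw [natDegree_X_sub_C]
    omega
  -- the second line
  set Fc := Ef (fun a b => C (e₁ a b)) (Nt l ν (algebraMap N N₁ ni) (algebraMap N N₁ nj)
    (algebraMap N N₁ wi) (algebraMap N N₁ wj) (algebraMap N N₁ wm) H1 y z0 z1 z2)
    (C ν * Kt (algebraMap N N₁ wi) (algebraMap N N₁ wj) (algebraMap N N₁ wm) z0 z1 y)
    (Mt l ν (algebraMap N N₁ ni) (algebraMap N N₁ nj) H1 y z1 z2) with hFc
  have pFc : PVal P Fc (Fc0 e ni nj nm wi wj wm) := PVal_Ef he H.pNt ((PVal.C H.vν).mul H.pKt) H.pMt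
  have hcomp : F.comp (C (algebraMap N N₁ nj) + C l * X) = C (l ^ 6) * Fc :=
    Fx_comp e₁ H.hν H.e1 H.e0 H.e2
  obtain ⟨hFc00, hFc0d, hr2, hne2⟩ := roots_moebius_full (Q := Qx e nj wi)
    (R := Fc0 e ni nj nm wi wj wm)
    (d := 6) hQ20 hQ2 (α := nm * (wj * nj - wi * ni)) (β := nj * (nm * wm - wi * ni))
    (γ := nm * (nj - ni)) (δ := nj * (nm - ni)) (det2 hnj hnm hΘ) (fun w hw' => Fc0_eval e hnj hw')
  have hn6 : ni = nj → (Fc0 e ni nj nm wi wj wm).natDegree = 6 :=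
    fun hij => Fc0_natDegree hij hnj hnm hw hQ2 hFc0d
  -- the common step
  have aux : ∀ (r : N₁) (D α : N), F.eval r = 0 → ((Mx f2 ν H1).eval r ≠ 0 ∧
      P.Val ((Nx f2 ν (algebraMap N N₁ wi) (algebraMap N N₁ wj) (algebraMap N N₁ wm) H1 H0).eval r /
            (Mx f2 ν H1).eval r) D ∧
      P.Val (ν * (Kx ν (algebraMap N N₁ wi) (algebraMap N N₁ wj) (algebraMap N N₁ wm)
        H1 H0).eval r / (Mx f2 ν H1).eval r) α) → (α = (D - wj) / ni ∨ α = (D - wi) / nj) →
      (f ((Nx f2 ν (algebraMap N N₁ wi) (algebraMap N N₁ wj) (algebraMap N N₁ wm) H1 H0).eval r /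
            (Mx f2 ν H1).eval r)
          (ν * (Kx ν (algebraMap N N₁ wi) (algebraMap N N₁ wj) (algebraMap N N₁ wm) H1 H0).eval r /
            (Mx f2 ν H1).eval r), g D α) ∈ SpecC K P := by
    rintro r D α hr ⟨hM, hD, hα⟩ hor
    have h1 := form_of hM hr
    have h2 : Ef e D α 1 = 0 := by
      have h3 := Val_Ef he hD hα P.val_one
      rw [h1] at h3
      exact h3.unique P.val_zero
    refine hfg _ _ _ _ hD hα (conic_of hM) h1 ?_
    rcases hor with h3 | h3
    · left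
      refine ⟨?_, h3⟩
      rw [Qx_eval, ← h3]
      exact h2
    · right
      refine ⟨?_, h3⟩
      rw [Qx_eval, ← h3]
      exact h2
  have key := bl_full (K := K) (P := P) (F := F) (F₀ := F₀) (G₀ := C (nm ^ 6) * G0 e ni wi wj)
    pF h0 (by rw [hdF, hdF₀]) {nj} (fun _ => 6)
    (by rw [Finset.prod_singleton]; exact hfac) (fun _ => l) (fun _ _ => H.hl) (fun _ _ => H.hl0)
    (fun _ => Fc) (fun _ => Fc0 e ni nj nm wi wj wm) (fun _ => l ^ 6)
    (fun _ _ => pow_ne_zero _ H.hl0) (fun _ _ => pFc)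
    (fun _ _ => hFc00) (fun _ _ => hFc0d)
    (fun c hc => by rw [Finset.mem_singleton] at hc; rw [hc]; exact hcomp)
    (fun r => f
      ((Nx f2 ν (algebraMap N N₁ wi) (algebraMap N N₁ wj) (algebraMap N N₁ wm) H1 H0).eval r /
            (Mx f2 ν H1).eval r)
          (ν * (Kx ν (algebraMap N N₁ wi) (algebraMap N N₁ wj) (algebraMap N N₁ wm) H1 H0).eval r /
            (Mx f2 ν H1).eval r))
    (fun a => g (d1 ni wi wj a) ((d1 ni wi wj a - wj) / ni))
    (fun _ w => g (d2 ni nj nm wi wj wm w) ((d2 ni nj nm wi wj wm w - wi) / nj)) ?_ ?_ ?_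
  · rw [Finset.sum_singleton, roots_C_mul _ (pow_ne_zero _ hnm)] at key
    have s1 : ((Qx e ni wj).roots.map fun D => g D ((D - wj) / ni)).sum =
        ((G0 e ni wi wj).roots.map fun a => g (d1 ni wi wj a)
          ((d1 ni wi wj a - wj) / ni)).sum := by
      rw [hr1, hG06, Nat.sub_self, Multiset.replicate_zero, add_zero, Multiset.map_map]
      rfl
    rw [s1, sum_line2 hnj hni hnm g hn6 hr2]
    exact key
  · intro r a hr hra ha hGa
    have hGa' : (G0 e ni wi wj).eval a = 0 := by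
      rw [eval_mul, eval_C] at hGa
      exact (mul_eq_zero.1 hGa).resolve_left (pow_ne_zero _ hnm)
    exact aux r _ _ hr (H.val_off hni hnm hra (hne1 a ((mem_roots hG00).2 hGa'))
      fun h => ha (Finset.mem_singleton.2 h)) (Or.inl rfl)
  · intro c hc r w hr hrw hw'
    rw [Finset.mem_singleton] at hc
    subst hc
    exact aux r _ _ hr (H.val_cl hnj hrw (hne2 w ((mem_roots hFc00).2 hw'))) (Or.inr rfl)
  · intro c hc r hr hrc hs0 hs
    rw [Finset.mem_singleton] at hc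
    subst hc
    by_cases hij : ni = c
    · exfalso
      obtain ⟨A, B, g1, g2, g3, g4⟩ := roots_cluster pF h0 H.hl H.hl0 (pow_ne_zero 6 H.hl0) pFc
        hFc00 hcomp
      have h1 : (C (nm ^ 6) * G0 e ni wi wj).rootMultiplicity c = 0 := by
        rw [rootMultiplicity_eq_zero]
        intro h
        rw [IsRoot, eval_mul, eval_C] at h
        have h2 := (mul_eq_zero.1 h).resolve_left (pow_ne_zero _ hnm)
        apply hne1 c ((mem_roots hG00).2 h2)
        rw [hij]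
        ring
      have h2 := rootMultiplicity_cluster_full h0 {c} (fun _ => 6)
        (by rw [Finset.prod_singleton]; exact hfac) c
      rw [h1, if_pos (Finset.mem_singleton_self _), zero_add] at h2
      rw [h2, hn6 hij] at g4
      have h3 : B = 0 := Multiset.card_eq_zero.1 (by omega)
      rw [h3, add_zero] at g1
      have hF0 : F ≠ 0 := by
        intro h
        rw [h, natDegree_zero] at hdF
        exact absurd hdF (by norm_num)
      have h4 : r ∈ A := by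
        rw [← g1, Multiset.mem_filter]
        exact ⟨(mem_roots hF0).2 hr, hrc⟩
      obtain ⟨w, -, hw'⟩ := Multiset.exists_mem_of_rel_of_mem g2 h4
      have h5 := hw'.mul hs
      rw [mul_inv_cancel₀ hs0, mul_zero] at h5
      exact one_ne_zero (P.val_one.unique h5)
    · exact aux r _ _ hr (H.val_node hni hnm hij hrc hs0 hs) (Or.inl rfl)

end spec

end Vale.Agent.P297.H80
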