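import Vale.Agent.P297.H637.BL2

/-!
Forms of degree six in three variables, with coefficients in a ring, and their values at
polynomials.
-/

set_option linter.unusedSectionVars false

open Polynomial

namespace Vale.Agent.P297.H80

open Vale.Agent.P297 Vale.Agent.P297.H72 Vale.Agent.P297.H637

section form

variable {R S : Type} [CommRing R] [CommRing S]

/-- The form of degree six with coefficients `e a b` of `x ^ a y ^ b z ^ (6 - a - b)`. -/
def Ef (e : ℕ → ℕ → R) (x y z : R) : R :=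
  ∑ a ∈ Finset.range 7, ∑ b ∈ Finset.range (7 - a), e a b * x ^ a * y ^ b * z ^ (6 - a - b)

theorem Ef_map (φ : R →+* S) (e : ℕ → ℕ → R) (x y z : R) :
    φ (Ef e x y z) = Ef (fun a b => φ (e a b)) (φ x) (φ y) (φ z) := by
  simp only [Ef, map_sum, map_mul, map_pow]

theorem Ef_smul (e : ℕ → ℕ → R) (c x y z : R) :
    Ef e (c * x) (c * y) (c * z) = c ^ 6 * Ef e x y z := by
  unfold Ef
  rw [Finset.mul_sum]
  refine Finset.sum_congr rfl fun a ha => ?_
  rw [Finset.mul_sum]
  refine Finset.sum_congr rfl fun b hb => ?_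
  rw [Finset.mem_range] at ha hb
  have h6 : c ^ 6 = c ^ a * c ^ b * c ^ (6 - a - b) := by
    rw [← pow_add, ← pow_add]
    congr 1
    omega
  rw [mul_pow, mul_pow, mul_pow, h6]
  ring

theorem Ef_natDegree {e : ℕ → ℕ → R} {x y z : R[X]} {d : ℕ} (hx : x.natDegree ≤ d)
    (hy : y.natDegree ≤ d) (hz : z.natDegree ≤ d) :
    (Ef (fun a b => C (e a b)) x y z).natDegree ≤ 6 * d := by
  unfold Ef
  refine natDegree_sum_le_of_forall_le _ _ fun a ha => ?_
  refine natDegree_sum_le_of_forall_le _ _ fun b hb => ?_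
  rw [Finset.mem_range] at ha hb
  have h1 : (C (e a b) * x ^ a).natDegree ≤ a * d :=
    (natDegree_C_mul_le _ _).trans (natDegree_pow_le_of_le a hx)
  have h2 := natDegree_mul_le_of_le h1 (natDegree_pow_le_of_le b hy)
  have h3 := natDegree_mul_le_of_le h2 (natDegree_pow_le_of_le (6 - a - b) hz)
  refine h3.trans (le_of_eq ?_)
  rw [← add_mul, ← add_mul]
  congr 1
  omega

theorem Ef_coeff {e : ℕ → ℕ → R} {x y z : R[X]} {d : ℕ} (hx : x.natDegree ≤ d)
    (hy : y.natDegree ≤ d) (hz : z.natDegree ≤ d) :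
    (Ef (fun a b => C (e a b)) x y z).coeff (6 * d) = Ef e (x.coeff d) (y.coeff d) (z.coeff d) := by
  unfold Ef
  rw [finsetSum_coeff]
  refine Finset.sum_congr rfl fun a ha => ?_
  rw [finsetSum_coeff]
  refine Finset.sum_congr rfl fun b hb => ?_
  rw [Finset.mem_range] at ha hb
  have h1 : (C (e a b) * x ^ a).natDegree ≤ a * d :=
    (natDegree_C_mul_le _ _).trans (natDegree_pow_le_of_le a hx)
  have h2 := natDegree_mul_le_of_le h1 (natDegree_pow_le_of_le b hy)
  have h6 : 6 * d = a * d + b * d + (6 - a - b) * d := by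
    rw [← add_mul, ← add_mul]
    congr 1
    omega
  rw [h6, coeff_mul_add_eq_of_natDegree_le h2 (natDegree_pow_le_of_le (6 - a - b) hz),
    coeff_mul_add_eq_of_natDegree_le h1 (natDegree_pow_le_of_le b hy), coeff_C_mul,
    coeff_pow_of_natDegree_le hx, coeff_pow_of_natDegree_le hy, coeff_pow_of_natDegree_le hz]

theorem Ef_eval (e : ℕ → ℕ → R) (x y z : R[X]) (t : R) :
    (Ef (fun a b => C (e a b)) x y z).eval t = Ef e (x.eval t) (y.eval t) (z.eval t) := by
  have h := Ef_map (evalRingHom t) (fun a b => C (e a b)) x y z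
  simpa only [coe_evalRingHom, eval_C] using h

theorem Ef_comp (e : ℕ → ℕ → R) (x y z p : R[X]) :
    (Ef (fun a b => C (e a b)) x y z).comp p =
      Ef (fun a b => C (e a b)) (x.comp p) (y.comp p) (z.comp p) := by
  have h := Ef_map (compRingHom p) (fun a b => C (e a b)) x y z
  simpa only [coe_compRingHom_apply, C_comp] using h

theorem Ef_polymap (φ : R →+* S) (e : ℕ → ℕ → R) (x y z : R[X]) :
    (Ef (fun a b => C (e a b)) x y z).map φ =
      Ef (fun a b => C (φ (e a b))) (x.map φ) (y.map φ) (z.map φ) := by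
  have h := Ef_map (mapRingHom φ) (fun a b => C (e a b)) x y z
  simpa only [coe_mapRingHom, map_C] using h

end form

section div

variable {L : Type} [Field L]

theorem Ef_div (e : ℕ → ℕ → L) {x y z : L} (hz : z ≠ 0) :
    Ef e x y z = z ^ 6 * Ef e (x / z) (y / z) 1 := by
  have h := Ef_smul e z (x / z) (y / z) 1
  rw [mul_div_cancel₀ _ hz, mul_div_cancel₀ _ hz, mul_one] at h
  exact h

/-- The form with `e a b = coefficient of `x ^ a` in `q b`. -/
theorem Ef_one (q : ℕ → L[X]) (hq : ∀ b, b ≤ 6 → (q b).natDegree ≤ 6 - b) (x y : L) :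
    Ef (fun a b => (q b).coeff a) x y 1 = ∑ b ∈ Finset.range 7, (q b).eval x * y ^ b := by
  unfold Ef
  have h1 : ∀ b ∈ Finset.range 7, (q b).eval x * y ^ b =
      ∑ a ∈ Finset.range (7 - b), (q b).coeff a * x ^ a * y ^ b := by
    intro b hb
    rw [Finset.mem_range] at hb
    rw [eval_eq_sum_range' (n := 7 - b)]
    · rw [Finset.sum_mul]
    · have := hq b (by omega)
      omega
  rw [Finset.sum_congr rfl h1]
  simp only [one_pow, mul_one]
  rw [Finset.sum_sigma', Finset.sum_sigma']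
  refine Finset.sum_bij' (fun p _ => ⟨p.2, p.1⟩) (fun p _ => ⟨p.2, p.1⟩) ?_ ?_ ?_ ?_ ?_
  · rintro ⟨a, b⟩ h
    simp only [Finset.mem_sigma, Finset.mem_range] at h ⊢
    omega
  · rintro ⟨a, b⟩ h
    simp only [Finset.mem_sigma, Finset.mem_range] at h ⊢
    omega
  · rintro ⟨a, b⟩ h
    rfl
  · rintro ⟨a, b⟩ h
    rfl
  · rintro ⟨a, b⟩ h
    rfl

end div

section val

variable {N N₁ : Type} [Field N] [Field N₁] [Algebra N N₁] {P : Plc N N₁}

theorem PVal_Ef {e₁ : ℕ → ℕ → N₁} {e : ℕ → ℕ → N} (he : ∀ a b, P.Val (e₁ a b) (e a b))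
    {x₁ y₁ z₁ : N₁[X]} {x y z : N[X]} (hx : PVal P x₁ x) (hy : PVal P y₁ y) (hz : PVal P z₁ z) :
    PVal P (Ef (fun a b => C (e₁ a b)) x₁ y₁ z₁) (Ef (fun a b => C (e a b)) x y z) := by
  unfold Ef
  refine PVal.sum _ fun a _ => PVal.sum _ fun b _ => ?_
  exact (((PVal.C (he a b)).mul (hx.pow a)).mul (hy.pow b)).mul (hz.pow _)

theorem Val_Ef {e₁ : ℕ → ℕ → N₁} {e : ℕ → ℕ → N} (he : ∀ a b, P.Val (e₁ a b) (e a b))
    {x₁ y₁ z₁ : N₁} {x y z : N} (hx : P.Val x₁ x) (hy : P.Val y₁ y) (hz : P.Val z₁ z) :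
    P.Val (Ef e₁ x₁ y₁ z₁) (Ef e x y z) := by
  unfold Ef
  refine Plc.Val.sum _ fun a _ => Plc.Val.sum _ fun b _ => ?_
  exact (((he a b).mul (hx.pow a)).mul (hy.pow b)).mul (hz.pow _)

end val

end Vale.Agent.P297.H80
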