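import Vale.Agent.P297.H572.Z3.Defs
import Vale.Agent.P297.H80.Z3.Dict

/-!
The plane cubic of the general `ℤ/3` Godeaux surface over the `δ`-line, and its invariants.
Letters: `d = δ`, `r_i = ρ_i = t_i + ζ_i δ`; `e₂ = v³ + 3 d v² - r₃ v - r₁`,
`e₀ = a³ + 3 d a² - r₄ a - r₂` (unshifted), `∑ n_i = 3 (a + d + 1)`,
`∑ v_i n_i = -(3 (d + 1) a + 9 d² + 9 d + r₃ + r₄)`.
-/

set_option linter.style.longLine false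

namespace Vale.Agent.P297.H80

variable {R : Type} [CommRing R]

/-- Total degree four. -/
def pp (d r1 r2 r3 r4 : R) : R :=
  6561 * d ^ 4 - 1944 * d ^ 3 * r1 - 1944 * d ^ 3 * r2 + 972 * d ^ 3 * r3 + 972 * d ^ 3 * r4
    + 216 * d ^ 2 * r1 * r3 - 216 * d ^ 2 * r1 * r4 - 216 * d ^ 2 * r2 * r3
    + 216 * d ^ 2 * r2 * r4 - 234 * d ^ 2 * r3 ^ 2 + 180 * d ^ 2 * r3 * r4
    - 234 * d ^ 2 * r4 ^ 2 + 12 * d * r3 ^ 3 - 12 * d * r3 ^ 2 * r4 - 12 * d * r3 * r4 ^ 2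
    + 12 * d * r4 ^ 3 + r3 ^ 4 - 4 * r3 ^ 3 * r4 + 6 * r3 ^ 2 * r4 ^ 2 - 4 * r3 * r4 ^ 3
    + r4 ^ 4 + 8748 * d ^ 3 - 3240 * d ^ 2 * r1 - 3240 * d ^ 2 * r2 + 3564 * d ^ 2 * r3
    + 3564 * d ^ 2 * r4 - 1080 * d * r1 * r4 - 1080 * d * r2 * r3 - 108 * d * r3 ^ 2
    + 864 * d * r3 * r4 - 108 * d * r4 ^ 2 + 72 * r1 * r3 * r4 - 72 * r1 * r4 ^ 2
    - 72 * r2 * r3 ^ 2 + 72 * r2 * r3 * r4 - 12 * r3 ^ 3 - 60 * r3 ^ 2 * r4 - 60 * r3 * r4 ^ 2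
    - 12 * r4 ^ 3 - 1458 * d ^ 2 - 648 * d * r1 - 648 * d * r2 + 1620 * d * r3 + 1620 * d * r4
    + 1296 * r1 * r2 - 216 * r1 * r3 - 864 * r1 * r4 - 864 * r2 * r3 - 216 * r2 * r4
    + 270 * r3 ^ 2 + 972 * r3 * r4 + 270 * r4 ^ 2 - 2916 * d + 648 * r1 + 648 * r2 - 972 * r3
    - 972 * r4 + 729

/-- Total degree six. -/
def qq (d r1 r2 r3 r4 : R) : R :=
  531441 * d ^ 6 - 236196 * d ^ 5 * r1 - 236196 * d ^ 5 * r2 + 118098 * d ^ 5 * r3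
    + 118098 * d ^ 5 * r4 + 17496 * d ^ 4 * r1 ^ 2 - 34992 * d ^ 4 * r1 * r2
    + 8748 * d ^ 4 * r1 * r3 - 43740 * d ^ 4 * r1 * r4 + 17496 * d ^ 4 * r2 ^ 2
    - 43740 * d ^ 4 * r2 * r3 + 8748 * d ^ 4 * r2 * r4 - 24057 * d ^ 4 * r3 ^ 2
    + 30618 * d ^ 4 * r3 * r4 - 24057 * d ^ 4 * r4 ^ 2 - 972 * d ^ 3 * r1 * r3 ^ 2
    + 5832 * d ^ 3 * r1 * r3 * r4 - 4860 * d ^ 3 * r1 * r4 ^ 2 - 4860 * d ^ 3 * r2 * r3 ^ 2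
    + 5832 * d ^ 3 * r2 * r3 * r4 - 972 * d ^ 3 * r2 * r4 ^ 2 - 756 * d ^ 3 * r3 ^ 3
    - 2268 * d ^ 3 * r3 ^ 2 * r4 - 2268 * d ^ 3 * r3 * r4 ^ 2 - 756 * d ^ 3 * r4 ^ 3
    + 324 * d ^ 2 * r1 * r3 ^ 3 - 972 * d ^ 2 * r1 * r3 ^ 2 * r4
    + 972 * d ^ 2 * r1 * r3 * r4 ^ 2 - 324 * d ^ 2 * r1 * r4 ^ 3 - 324 * d ^ 2 * r2 * r3 ^ 3
    + 972 * d ^ 2 * r2 * r3 ^ 2 * r4 - 972 * d ^ 2 * r2 * r3 * r4 ^ 2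
    + 324 * d ^ 2 * r2 * r4 ^ 3 - 297 * d ^ 2 * r3 ^ 4 + 972 * d ^ 2 * r3 ^ 3 * r4
    - 1350 * d ^ 2 * r3 ^ 2 * r4 ^ 2 + 972 * d ^ 2 * r3 * r4 ^ 3 - 297 * d ^ 2 * r4 ^ 4
    + 18 * d * r3 ^ 5 - 54 * d * r3 ^ 4 * r4 + 36 * d * r3 ^ 3 * r4 ^ 2
    + 36 * d * r3 ^ 2 * r4 ^ 3 - 54 * d * r3 * r4 ^ 4 + 18 * d * r4 ^ 5 + r3 ^ 6
    - 6 * r3 ^ 5 * r4 + 15 * r3 ^ 4 * r4 ^ 2 - 20 * r3 ^ 3 * r4 ^ 3 + 15 * r3 ^ 2 * r4 ^ 4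
    - 6 * r3 * r4 ^ 5 + r4 ^ 6 + 1062882 * d ^ 5 - 551124 * d ^ 4 * r1 - 551124 * d ^ 4 * r2
    + 511758 * d ^ 4 * r3 + 511758 * d ^ 4 * r4 + 46656 * d ^ 3 * r1 ^ 2
    + 116640 * d ^ 3 * r1 * r2 - 64152 * d ^ 3 * r1 * r3 - 230364 * d ^ 3 * r1 * r4
    + 46656 * d ^ 3 * r2 ^ 2 - 230364 * d ^ 3 * r2 * r3 - 64152 * d ^ 3 * r2 * r4
    - 2916 * d ^ 3 * r3 ^ 2 + 177876 * d ^ 3 * r3 * r4 - 2916 * d ^ 3 * r4 ^ 2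
    + 11664 * d ^ 2 * r1 ^ 2 * r4 - 11664 * d ^ 2 * r1 * r2 * r3 - 11664 * d ^ 2 * r1 * r2 * r4
    + 8748 * d ^ 2 * r1 * r3 ^ 2 - 2916 * d ^ 2 * r1 * r3 * r4 - 13608 * d ^ 2 * r1 * r4 ^ 2
    + 11664 * d ^ 2 * r2 ^ 2 * r3 - 13608 * d ^ 2 * r2 * r3 ^ 2 - 2916 * d ^ 2 * r2 * r3 * r4
    + 8748 * d ^ 2 * r2 * r4 ^ 2 - 8748 * d ^ 2 * r3 ^ 3 - 5832 * d ^ 2 * r3 ^ 2 * r4
    - 5832 * d ^ 2 * r3 * r4 ^ 2 - 8748 * d ^ 2 * r4 ^ 3 - 972 * d * r1 * r3 ^ 2 * r4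
    + 3240 * d * r1 * r3 * r4 ^ 2 - 2268 * d * r1 * r4 ^ 3 - 2268 * d * r2 * r3 ^ 3
    + 3240 * d * r2 * r3 ^ 2 * r4 - 972 * d * r2 * r3 * r4 ^ 2 - 270 * d * r3 ^ 4
    + 972 * d * r3 ^ 3 * r4 - 3996 * d * r3 ^ 2 * r4 ^ 2 + 972 * d * r3 * r4 ^ 3
    - 270 * d * r4 ^ 4 + 108 * r1 * r3 ^ 3 * r4 - 324 * r1 * r3 ^ 2 * r4 ^ 2
    + 324 * r1 * r3 * r4 ^ 3 - 108 * r1 * r4 ^ 4 - 108 * r2 * r3 ^ 4 + 324 * r2 * r3 ^ 3 * r4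
    - 324 * r2 * r3 ^ 2 * r4 ^ 2 + 108 * r2 * r3 * r4 ^ 3 - 18 * r3 ^ 5 - 54 * r3 ^ 4 * r4
    + 72 * r3 ^ 3 * r4 ^ 2 + 72 * r3 ^ 2 * r4 ^ 3 - 54 * r3 * r4 ^ 4 - 18 * r4 ^ 5
    + 177147 * d ^ 4 - 262440 * d ^ 3 * r1 - 262440 * d ^ 3 * r2 + 446148 * d ^ 3 * r3
    + 446148 * d ^ 3 * r4 + 34992 * d ^ 2 * r1 ^ 2 + 227448 * d ^ 2 * r1 * r2
    - 128304 * d ^ 2 * r1 * r3 - 277020 * d ^ 2 * r1 * r4 + 34992 * d ^ 2 * r2 ^ 2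
    - 277020 * d ^ 2 * r2 * r3 - 128304 * d ^ 2 * r2 * r4 + 88938 * d ^ 2 * r3 ^ 2
    + 291600 * d ^ 2 * r3 * r4 + 88938 * d ^ 2 * r4 ^ 2 + 23328 * d * r1 ^ 2 * r4
    + 34992 * d * r1 * r2 * r3 + 34992 * d * r1 * r2 * r4 + 4860 * d * r1 * r3 ^ 2
    - 46656 * d * r1 * r3 * r4 - 35964 * d * r1 * r4 ^ 2 + 23328 * d * r2 ^ 2 * r3
    - 35964 * d * r2 * r3 ^ 2 - 46656 * d * r2 * r3 * r4 + 4860 * d * r2 * r4 ^ 2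
    - 4860 * d * r3 ^ 3 + 18468 * d * r3 ^ 2 * r4 + 18468 * d * r3 * r4 ^ 2 - 4860 * d * r4 ^ 3
    + 1944 * r1 ^ 2 * r4 ^ 2 + 1944 * r1 * r2 * r3 ^ 2 - 7776 * r1 * r2 * r3 * r4
    + 1944 * r1 * r2 * r4 ^ 2 + 540 * r1 * r3 ^ 3 + 1296 * r1 * r3 ^ 2 * r4
    + 3564 * r1 * r3 * r4 ^ 2 - 1512 * r1 * r4 ^ 3 + 1944 * r2 ^ 2 * r3 ^ 2 - 1512 * r2 * r3 ^ 3
    + 3564 * r2 * r3 ^ 2 * r4 + 1296 * r2 * r3 * r4 ^ 2 + 540 * r2 * r4 ^ 3 - 405 * r3 ^ 4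
    - 1296 * r3 ^ 3 * r4 - 5022 * r3 ^ 2 * r4 ^ 2 - 1296 * r3 * r4 ^ 3 - 405 * r4 ^ 4
    - 551124 * d ^ 3 + 157464 * d ^ 2 * r1 + 157464 * d ^ 2 * r2 - 131220 * d ^ 2 * r3
    - 131220 * d ^ 2 * r4 + 104976 * d * r1 * r2 - 29160 * d * r1 * r3 - 37908 * d * r1 * r4
    - 37908 * d * r2 * r3 - 29160 * d * r2 * r4 + 43740 * d * r3 ^ 2 + 78732 * d * r3 * r4
    + 43740 * d * r4 ^ 2 - 23328 * r1 ^ 2 * r2 + 11664 * r1 ^ 2 * r4 - 23328 * r1 * r2 ^ 2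
    + 46656 * r1 * r2 * r3 + 46656 * r1 * r2 * r4 - 4860 * r1 * r3 ^ 2 - 37908 * r1 * r3 * r4
    - 19440 * r1 * r4 ^ 2 + 11664 * r2 ^ 2 * r3 - 19440 * r2 * r3 ^ 2 - 37908 * r2 * r3 * r4
    - 4860 * r2 * r4 ^ 2 + 4860 * r3 ^ 3 + 27216 * r3 ^ 2 * r4 + 27216 * r3 * r4 ^ 2
    + 4860 * r4 ^ 3 - 59049 * d ^ 2 + 78732 * d * r1 + 78732 * d * r2 - 144342 * d * r3
    - 144342 * d * r4 - 5832 * r1 ^ 2 - 64152 * r1 * r2 + 26244 * r1 * r3 + 52488 * r1 * r4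
    - 5832 * r2 ^ 2 + 52488 * r2 * r3 + 26244 * r2 * r4 - 24057 * r3 ^ 2 - 65610 * r3 * r4
    - 24057 * r4 ^ 2 + 118098 * d - 26244 * r1 - 26244 * r2 + 39366 * r3 + 39366 * r4 - 19683

end Vale.Agent.P297.H80
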