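import Vale.Agent.P297.H80.Z3.Form

/-!
The pencil of conics that degenerates to two lines: the points of a form of degree six on the
generic member specialise to its points on the two lines.
-/

set_option linter.unusedSectionVars false
set_option linter.style.longLine false

open Polynomial

namespace Vale.Agent.P297.H80

open Vale.Agent.P297 Vale.Agent.P297.H72 Vale.Agent.P297.H637

section defs

variable {R : Type} [CommRing R]

/-- the denominator -/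
noncomputable def Mx (f2 ν H1 : R) : R[X] := C ν * X ^ 2 - C (ν * (H1 - ν)) * X + C f2

/-- the linear factor -/
noncomputable def Kx (ν wi wj wm H1 H0 : R) : R[X] :=
  C (wj - wi) * X + C (H0 + wi * H1 + ν * (wm - wi))

/-- the numerator -/
noncomputable def Nx (f2 ν wi wj wm H1 H0 : R) : R[X] :=
  C wi * Mx f2 ν H1 + C ν * (X * Kx ν wi wj wm H1 H0)

/-- The polynomial of the points of the form on the conic. -/
noncomputable def Fx (e : ℕ → ℕ → R) (f2 ν wi wj wm H1 H0 : R) : R[X] :=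
  Ef (fun a b => C (e a b)) (Nx f2 ν wi wj wm H1 H0) (C ν * Kx ν wi wj wm H1 H0) (Mx f2 ν H1)

variable {S : Type} [CommRing S] (φ : R →+* S)

theorem Mx_map (f2 ν H1 : R) : (Mx f2 ν H1).map φ = Mx (φ f2) (φ ν) (φ H1) := by
  simp [Mx]

theorem Kx_map (ν wi wj wm H1 H0 : R) : (Kx ν wi wj wm H1 H0).map φ =
    Kx (φ ν) (φ wi) (φ wj) (φ wm) (φ H1) (φ H0) := by
  simp [Kx]

theorem Nx_map (f2 ν wi wj wm H1 H0 : R) : (Nx f2 ν wi wj wm H1 H0).map φ =
    Nx (φ f2) (φ ν) (φ wi) (φ wj) (φ wm) (φ H1) (φ H0) := by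
  simp [Nx, Mx_map, Kx_map]

theorem Fx_map (e : ℕ → ℕ → R) (f2 ν wi wj wm H1 H0 : R) :
    (Fx e f2 ν wi wj wm H1 H0).map φ =
      Fx (fun a b => φ (e a b)) (φ f2) (φ ν) (φ wi) (φ wj) (φ wm) (φ H1) (φ H0) := by
  rw [Fx, Fx, Ef_polymap, Nx_map, Mx_map, Polynomial.map_mul, map_C, Kx_map]

theorem Mx_eval (f2 ν H1 t : R) : (Mx f2 ν H1).eval t = ν * t ^ 2 - ν * (H1 - ν) * t + f2 := by
  simp [Mx]

theorem Kx_eval (ν wi wj wm H1 H0 t : R) : (Kx ν wi wj wm H1 H0).eval t =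
    (wj - wi) * t + (H0 + wi * H1 + ν * (wm - wi)) := by
  simp [Kx]

theorem Nx_eval (f2 ν wi wj wm H1 H0 t : R) : (Nx f2 ν wi wj wm H1 H0).eval t =
    wi * (Mx f2 ν H1).eval t + ν * (t * (Kx ν wi wj wm H1 H0).eval t) := by
  simp [Nx]

theorem Fx_eval (e : ℕ → ℕ → R) (f2 ν wi wj wm H1 H0 t : R) :
    (Fx e f2 ν wi wj wm H1 H0).eval t = Ef e ((Nx f2 ν wi wj wm H1 H0).eval t)
      (ν * (Kx ν wi wj wm H1 H0).eval t) ((Mx f2 ν H1).eval t) := by
  rw [Fx, Ef_eval, eval_mul, eval_C]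

theorem Mx_deg (f2 ν H1 : R) : (Mx f2 ν H1).natDegree ≤ 2 := by
  unfold Mx
  compute_degree

theorem Kx_deg (ν wi wj wm H1 H0 : R) : (Kx ν wi wj wm H1 H0).natDegree ≤ 1 := by
  unfold Kx
  compute_degree

theorem CKx_deg (ν wi wj wm H1 H0 : R) : (C ν * Kx ν wi wj wm H1 H0).natDegree ≤ 2 :=
  ((natDegree_C_mul_le _ _).trans (Kx_deg _ _ _ _ _ _)).trans (by norm_num)

theorem Nx_deg (f2 ν wi wj wm H1 H0 : R) : (Nx f2 ν wi wj wm H1 H0).natDegree ≤ 2 := by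
  unfold Nx
  refine (natDegree_add_le _ _).trans (max_le ?_ ?_)
  · exact (natDegree_C_mul_le _ _).trans (Mx_deg _ _ _)
  · refine (natDegree_C_mul_le _ _).trans ((natDegree_mul_le).trans ?_)
    have h1 := natDegree_X_le (R := R)
    have h2 := Kx_deg ν wi wj wm H1 H0
    omega

theorem Mx_coeff (f2 ν H1 : R) : (Mx f2 ν H1).coeff 2 = ν := by
  simp [Mx]

theorem Kx_coeff (ν wi wj wm H1 H0 : R) : (Kx ν wi wj wm H1 H0).coeff 2 = 0 := by
  simp [Kx, coeff_X]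

theorem Kx_coeff1 (ν wi wj wm H1 H0 : R) : (Kx ν wi wj wm H1 H0).coeff 1 = wj - wi := by
  simp [Kx]

theorem Nx_coeff (f2 ν wi wj wm H1 H0 : R) : (Nx f2 ν wi wj wm H1 H0).coeff 2 = ν * wj := by
  simp only [Nx, coeff_add, coeff_C_mul, Mx_coeff, coeff_X_mul, Kx_coeff1]
  ring

theorem Fx_deg (e : ℕ → ℕ → R) (f2 ν wi wj wm H1 H0 : R) :
    (Fx e f2 ν wi wj wm H1 H0).natDegree ≤ 12 :=
  Ef_natDegree (Nx_deg _ _ _ _ _ _ _) (CKx_deg _ _ _ _ _ _) (Mx_deg _ _ _)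

theorem Fx_coeff (e : ℕ → ℕ → R) (f2 ν wi wj wm H1 H0 : R) :
    (Fx e f2 ν wi wj wm H1 H0).coeff 12 = ν ^ 6 * Ef e wj 0 1 := by
  have h := Ef_coeff (e := e) (Nx_deg f2 ν wi wj wm H1 H0) (CKx_deg ν wi wj wm H1 H0)
    (Mx_deg f2 ν H1)
  rw [Nx_coeff, Mx_coeff, coeff_C_mul, Kx_coeff, mul_zero] at h
  rw [← Ef_smul, mul_zero, mul_one]
  exact h

end defs

section special

variable {N : Type} [Field N] {ni nj nm wi wj wm : N}

/-- the values of the parameters of the special member -/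
theorem Mx_special : Mx (ni * nj * nm) nm (ni + nj + nm) =
    C nm * (X - C ni) * (X - C nj) := by
  simp only [Mx, C_mul, C_add, C_sub]
  ring

theorem Kx_special : Kx nm wi wj wm (ni + nj + nm) (-(wi * ni + wj * nj + wm * nm)) =
    C (wj - wi) * (X - C nj) := by
  simp only [Kx, C_mul, C_add, C_sub, C_neg]
  ring

/-- the polynomial of the points of the form on the first line -/
noncomputable def G0 (e : ℕ → ℕ → N) (ni wi wj : N) : N[X] :=
  Ef (fun a b => C (e a b)) (C wj * X - C (wi * ni)) (C (wj - wi)) (X - C ni)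

theorem Fx_special (e : ℕ → ℕ → N) :
    Fx e (ni * nj * nm) nm wi wj wm (ni + nj + nm) (-(wi * ni + wj * nj + wm * nm)) =
      C (nm ^ 6) * G0 e ni wi wj * (X - C nj) ^ 6 := by
  have h1 : Nx (ni * nj * nm) nm wi wj wm (ni + nj + nm) (-(wi * ni + wj * nj + wm * nm)) =
      (C nm * (X - C nj)) * (C wj * X - C (wi * ni)) := by
    rw [Nx, Mx_special, Kx_special]
    simp only [C_mul, C_sub]
    ring
  have h2 : C nm * Kx nm wi wj wm (ni + nj + nm) (-(wi * ni + wj * nj + wm * nm)) =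
      (C nm * (X - C nj)) * C (wj - wi) := by
    rw [Kx_special]
    ring
  have h3 : Mx (ni * nj * nm) nm (ni + nj + nm) = (C nm * (X - C nj)) * (X - C ni) := by
    rw [Mx_special]
    ring
  rw [Fx, h1, h2, h3, Ef_smul, G0, C_pow]
  ring

/-- the form on the line `α = (D - w) / n` -/
noncomputable def Qx (e : ℕ → ℕ → N) (n w : N) : N[X] :=
  Ef (fun a b => C (e a b)) X (C n⁻¹ * (X - C w)) 1

theorem Qx_eval (e : ℕ → ℕ → N) (n w D : N) :
    (Qx e n w).eval D = Ef e D ((D - w) / n) 1 := by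
  rw [Qx, Ef_eval, div_eq_inv_mul]
  simp

theorem G0_eval (e : ℕ → ℕ → N) (hni : ni ≠ 0) {t : N}
    (ht : 1 * t + -ni ≠ 0) : (G0 e ni wi wj).eval t =
      (1 * t + -ni) ^ 6 * (Qx e ni wj).eval ((wj * t + -(wi * ni)) / (1 * t + -ni)) := by
  rw [Qx_eval, G0, Ef_eval]
  simp only [eval_mul, eval_C, eval_sub, eval_X]
  rw [one_mul, ← sub_eq_add_neg] at *
  rw [Ef_div _ ht, ← sub_eq_add_neg]
  congr 2
  field_simp
  ring

end special

section scaled

variable {R : Type} [CommRing R]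

/-- the scaled linear factor -/
noncomputable def Kt (wi wj wm z0 z1 y : R) : R[X] :=
  C (wj - wi) * X + C (z0 + wi * z1 + y * (wm - wi))

/-- the scaled denominator -/
noncomputable def Mt (l ν ni nj H1 y z1 z2 : R) : R[X] :=
  C (ν * l) * X ^ 2 + C (2 * ν * nj - ν * (H1 - ν)) * X + C (z2 - y * ni * nj - ν * (z1 - y) * nj)

/-- the scaled numerator -/
noncomputable def Nt (l ν ni nj wi wj wm H1 y z0 z1 z2 : R) : R[X] :=
  C wi * Mt l ν ni nj H1 y z1 z2 + C ν * ((C nj + C l * X) * Kt wi wj wm z0 z1 y)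

theorem Kx_comp {l ni nj nm wi wj wm y z0 z1 ν H1 H0 : R} (hν : ν = nm + l * y)
    (hH1 : H1 = ni + nj + nm + l * z1) (hH0 : H0 = -(wi * ni + wj * nj + wm * nm) + l * z0) :
    (Kx ν wi wj wm H1 H0).comp (C nj + C l * X) = C l * Kt wi wj wm z0 z1 y := by
  subst hν hH1 hH0
  simp only [Kx, Kt, add_comp, mul_comp, C_comp, X_comp]
  simp only [C_mul, C_add, C_sub, C_neg]
  ring

theorem Mx_comp {l ni nj nm y z1 z2 ν H1 f2 : R} (hν : ν = nm + l * y)
    (hH1 : H1 = ni + nj + nm + l * z1) (hf2 : f2 = ni * nj * nm + l * z2) :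
    (Mx f2 ν H1).comp (C nj + C l * X) = C l * Mt l ν ni nj H1 y z1 z2 := by
  subst hν hH1 hf2
  simp only [Mx, Mt, add_comp, sub_comp, mul_comp, C_comp, X_comp, pow_comp]
  simp only [C_mul, C_add, C_sub, C_ofNat]
  ring

theorem Nx_comp {l ni nj nm wi wj wm y z0 z1 z2 ν H1 H0 f2 : R} (hν : ν = nm + l * y)
    (hH1 : H1 = ni + nj + nm + l * z1) (hH0 : H0 = -(wi * ni + wj * nj + wm * nm) + l * z0)
    (hf2 : f2 = ni * nj * nm + l * z2) :
    (Nx f2 ν wi wj wm H1 H0).comp (C nj + C l * X) =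
      C l * Nt l ν ni nj wi wj wm H1 y z0 z1 z2 := by
  rw [Nx, add_comp, mul_comp, mul_comp, mul_comp, C_comp, C_comp, X_comp, Mx_comp hν hH1 hf2,
    Kx_comp hν hH1 hH0, Nt]
  ring

theorem Fx_comp {l ni nj nm wi wj wm y z0 z1 z2 ν H1 H0 f2 : R} (e : ℕ → ℕ → R)
    (hν : ν = nm + l * y)
    (hH1 : H1 = ni + nj + nm + l * z1) (hH0 : H0 = -(wi * ni + wj * nj + wm * nm) + l * z0)
    (hf2 : f2 = ni * nj * nm + l * z2) :
    (Fx e f2 ν wi wj wm H1 H0).comp (C nj + C l * X) =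
      C (l ^ 6) * Ef (fun a b => C (e a b)) (Nt l ν ni nj wi wj wm H1 y z0 z1 z2)
        (C ν * Kt wi wj wm z0 z1 y) (Mt l ν ni nj H1 y z1 z2) := by
  rw [Fx, Ef_comp, Nx_comp hν hH1 hH0 hf2, mul_comp, C_comp, Kx_comp hν hH1 hH0,
    Mx_comp hν hH1 hf2, C_pow, ← Ef_smul]
  congr 1
  ring

theorem Kt_eval (wi wj wm z0 z1 y t : R) : (Kt wi wj wm z0 z1 y).eval t =
    (wj - wi) * t + (z0 + wi * z1 + y * (wm - wi)) := by
  simp [Kt]

theorem Mt_eval (l ν ni nj H1 y z1 z2 t : R) : (Mt l ν ni nj H1 y z1 z2).eval t =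
    ν * l * t ^ 2 + (2 * ν * nj - ν * (H1 - ν)) * t + (z2 - y * ni * nj - ν * (z1 - y) * nj) := by
  simp [Mt]

theorem Nt_eval (l ν ni nj wi wj wm H1 y z0 z1 z2 t : R) :
    (Nt l ν ni nj wi wj wm H1 y z0 z1 z2).eval t =
      wi * (Mt l ν ni nj H1 y z1 z2).eval t + ν * ((nj + l * t) * (Kt wi wj wm z0 z1 y).eval t) := by
  simp [Nt]

end scaled

end Vale.Agent.P297.H80
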